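import Vale.Agent.P139.H42.Lin
import Vale.Agent.P139.H25.Flow

/-!
# The linear package in the variables of the profile equation
-/

open Set Filter Topology MeasureTheory Function
open scoped ComplexConjugate

namespace Vale.Agent.P139.H42

open Vale.Agent.P139.BU Vale.Agent.P139.WA

variable {d s : ℕ} {κ : ℝ}

/-- The potential part of the linearised operator on pairs. -/
noncomputable def BX (hκ : 0 ≤ κ) (m : ℕ) (V₁ V₂ : XK d s κ) :
    (XK d s κ × XK d s κ) →L[ℂ] (XK d s κ × XK d s κ) :=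
  ((-(Complex.I * (m + 1))) • ((mulX hκ V₁) ∘L (ContinuousLinearMap.fst ℂ _ _)) +
    (-(Complex.I * m)) • ((mulX hκ V₂) ∘L (ContinuousLinearMap.snd ℂ _ _))).prod
  ((Complex.I * m) • ((mulX hκ (starX hκ V₂)) ∘L (ContinuousLinearMap.fst ℂ _ _)) +
    (Complex.I * (m + 1)) • ((mulX hκ V₁) ∘L (ContinuousLinearMap.snd ℂ _ _)))

@[simp] theorem BX_apply (hκ : 0 ≤ κ) (m : ℕ) (V₁ V₂ : XK d s κ) (x : XK d s κ × XK d s κ) :
    BX hκ m V₁ V₂ x =
      ((-(Complex.I * (m + 1))) • mulX hκ V₁ x.1 + (-(Complex.I * m)) • mulX hκ V₂ x.2,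
        (Complex.I * m) • mulX hκ (starX hκ V₂) x.1 + (Complex.I * (m + 1)) • mulX hκ V₁ x.2) :=
  rfl

theorem BX_eq (hκ : 0 ≤ κ) (m : ℕ) {V₁ : XK d s κ} (h : starX hκ V₁ = V₁) (V₂ : XK d s κ) :
    BX hκ m V₁ V₂ =
      BP hκ ((-(Complex.I * (m + 1))) • V₁) ((-(Complex.I * m)) • V₂) := by
  refine ContinuousLinearMap.ext fun x => ?_
  rw [BX_apply, BP_apply, mulX_smul_left, mulX_smul_left, starX_smul, starX_smul, h,
    mulX_smul_left, mulX_smul_left]
  congr 3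
  · simp
  · simp

theorem m0_smul (hκ : 0 ≤ κ) (c : ℂ) (φ : XK d s κ) : m0 (c • φ) = ‖c‖ * m0 φ := by
  rw [m0, m0, ← integral_const_mul]
  refine integral_congr_ae ?_
  filter_upwards [XK.ae_smul hκ c φ] with ξ hξ
  rw [hξ, norm_mul]

/-- Components of the free flow in the notation of `H25.Flow`. -/
theorem flowK_flowD (hκ : 0 ≤ κ) (c : ℂ) (σ : ℝ) {t : ℝ} (ht : 0 ≤ t) (f : XK d s κ) :
    (flowK d s hκ c (σ * (4 * Real.pi ^ 2)) t f : E d → ℂ) =ᵐ[volume] H25.flowD c σ t f := by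
  filter_upwards [flowK_coe hκ c (σ * (4 * Real.pi ^ 2)) ht f] with ξ hξ
  rw [hξ]
  unfold flowk flowA H25.flowD
  rw [finrank_euclideanSpace, Fintype.card_fin, Complex.ofReal_exp, Complex.ofReal_exp,
    ← Complex.exp_add, ← Complex.exp_add]
  congr 2
  push_cast
  ring

/-- **Linear semigroup package** for the linearised profile operator. -/
theorem st_semi {m : ℕ} (hm : 1 ≤ m) (w : ℝ) (hs : 1 ≤ s) (V₁ V₂ : X1 d s)
    (h1 : starX zero_le_one V₁ = V₁) (hsm : 16 * ((m + 1) * m0 V₁ + m * m0 V₂) ≤ s) :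
    ∃ S : ℝ → (X1 d s × X1 d s) →L[ℂ] (X1 d s × X1 d s),
      IsPert (flowP d s zero_le_one (-(aa m) + Complex.I * w) (4 * Real.pi ^ 2))
        (BX zero_le_one m V₁ V₂) S ∧
      Vale.P139.QC.QuasiCompact (S 1) ∧
      ∀ t, 0 ≤ t → ∀ x, JX zero_le_one (S t x) = S t (JX zero_le_one x) := by
  rw [BX_eq zero_le_one m h1]
  refine linear_package (a := aa m) ?_ _ ?_ _ hs _ _ ?_
  · unfold aa
    have : (1 : ℝ) ≤ m := by exact_mod_cast hm
    positivity
  · simp
  · rw [m0_smul zero_le_one, m0_smul zero_le_one]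
    have e1 : ‖-(Complex.I * ((m : ℂ) + 1))‖ = m + 1 := by
      rw [norm_neg, norm_mul, Complex.norm_I, one_mul]
      have : ((m : ℂ) + 1) = ((m + 1 : ℝ) : ℂ) := by push_cast; ring
      rw [this, Complex.norm_real, Real.norm_of_nonneg (by positivity)]
    have e2 : ‖-(Complex.I * (m : ℂ))‖ = m := by
      rw [norm_neg, norm_mul, Complex.norm_I, one_mul, Complex.norm_natCast]
    rw [e1, e2]
    exact hsm

end Vale.Agent.P139.H42
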