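import Vale.Agent.P139.H42.SG3

/-!
# Compactness of the difference of two semigroups
-/

open Set Filter Topology MeasureTheory intervalIntegral Function
open scoped BoundedContinuousFunction Pointwise

namespace Vale.Agent.P139.H42

variable {E : Type*} [NormedAddCommGroup E] [NormedSpace ℂ E] [CompleteSpace E]

/-- The average of a continuous function with values in a compact set lies in a fixed compact
set. -/
theorem compact_avg {s : Set E} (hs : IsCompact s) : IsCompact (closure (convexHull ℝ s)) := by
  exact (TotallyBounded.convexHull hs.totallyBounded).closure.isCompact_of_isClosed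
    isClosed_closure

variable {S₀ S S' : ℝ → E →L[ℂ] E} {B B' : E →L[ℂ] E}

theorem IsPert.compact_sub (h : IsPert S₀ B S) (hB : IsCompactOperator B) {t : ℝ} (ht : 0 ≤ t) :
    IsCompactOperator (S t - S₀ t : E →L[ℂ] E) := by
  rcases eq_or_lt_of_le ht with ht0 | ht0
  · rw [← ht0, h.sg.zero, h.sg₀.zero, sub_self]
    exact isCompactOperator_zero
  obtain ⟨M, w, hM, hb⟩ := h.sg.bdd
  set C : ℝ := M * Real.exp (|w| * t) with hC
  obtain ⟨K₁, hK₁, hK₁'⟩ := hB.image_closedBall_subset_compact C
  set K₂ : Set E := (fun p : ℝ × E => S₀ (max p.1 0) p.2) '' (Icc 0 t ×ˢ K₁) with hK₂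
  have hK₂c : IsCompact K₂ := (isCompact_Icc.prod hK₁).image h.sg₀.cont2
  set K₃ : Set E := closure (convexHull ℝ K₂) with hK₃
  have hK₃c : IsCompact K₃ := compact_avg hK₂c
  have hK₄ : IsCompact (t • K₃) := hK₃c.smul t
  refine ⟨t • K₃, hK₄, ?_⟩
  refine Filter.mem_of_superset (Metric.closedBall_mem_nhds (0 : E) one_pos) ?_
  intro f hf
  rw [mem_closedBall_zero_iff] at hf
  rw [mem_preimage]
  have h1 : (S t - S₀ t) f = ∫ s in (0:ℝ)..t, S₀ (t - s) (B (S s f)) := by
    rw [_root_.sub_apply, h.duh f t ht]; abel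
  have hc : Continuous fun s => B (S (max s 0) f) := B.continuous.comp (h.sg.contMax f)
  have hint : IntervalIntegrable (fun s => S₀ (t - s) (B (S s f))) volume 0 t := by
    refine (h.sg₀.intble hc ht le_rfl).congr ?_
    intro s hs
    rw [uIoc_of_le ht] at hs
    simp only [max_eq_left hs.1.le]
  rw [h1, intervalIntegral.integral_of_le ht]
  have hint' : IntegrableOn (fun s => S₀ (t - s) (B (S s f))) (Ioc 0 t) volume := by
    rw [intervalIntegrable_iff_integrableOn_Ioc_of_le ht] at hint
    exact hint
  have hmem : ∀ᵐ s ∂(volume.restrict (Ioc 0 t)), S₀ (t - s) (B (S s f)) ∈ K₃ := by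
    rw [ae_restrict_iff' measurableSet_Ioc]
    refine Filter.Eventually.of_forall fun s hs => ?_
    apply subset_closure
    apply subset_convexHull
    refine ⟨(t - s, B (S s f)), ⟨⟨by linarith [hs.2], by linarith [hs.1]⟩, ?_⟩, ?_⟩
    · apply hK₁'
      refine mem_image_of_mem _ ?_
      rw [mem_closedBall_zero_iff]
      calc ‖S s f‖ ≤ ‖S s‖ * ‖f‖ := ContinuousLinearMap.le_opNorm _ _
        _ ≤ (M * Real.exp (w * s)) * 1 := by
            gcongr
            exact hb s hs.1.le
        _ ≤ C := by
            rw [mul_one, hC]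
            have : w * s ≤ |w| * t := by
              calc w * s ≤ |w| * s := by gcongr; exacts [hs.1.le, le_abs_self w]
                _ ≤ |w| * t := by gcongr; exact hs.2
            gcongr
    · simp only
      rw [max_eq_left (by linarith [hs.2])]
  have hav := (convex_convexHull ℝ K₂).closure.set_average_mem isClosed_closure
    (μ := volume) (t := Ioc 0 t) (by simp [ht0]) (by simp) hmem hint'
  rw [setAverage_eq] at hav
  refine ⟨_, hav, ?_⟩
  simp only [Real.volume_real_Ioc_of_le ht, sub_zero]
  rw [smul_smul, mul_inv_cancel₀ ht0.ne', one_smul]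

/-- `S(t) = S₀(t) + compact`. -/
theorem IsPert.exists_compact (h : IsPert S₀ B S) (hB : IsCompactOperator B) {t : ℝ}
    (ht : 0 ≤ t) : ∃ K : E →L[ℂ] E, IsCompactOperator K ∧ S t = S₀ t + K :=
  ⟨S t - S₀ t, h.compact_sub hB ht, by abel⟩

end Vale.Agent.P139.H42
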