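import Vale.Agent.P139.H42.Split
import Vale.Agent.P139.H769.WA3

/-!
# The linearised evolution on pairs: existence and quasi-compactness
-/

open Set Filter Topology MeasureTheory Function
open scoped ComplexConjugate

namespace Vale.Agent.P139.H42

open Vale.Agent.P139.BU Vale.Agent.P139.WA

variable {d s : ℕ} {κ : ℝ}

/-- The multiplication part on pairs. -/
noncomputable def BP (hκ : 0 ≤ κ) (φ₁ φ₂ : XK d s κ) :
    (XK d s κ × XK d s κ) →L[ℂ] (XK d s κ × XK d s κ) :=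
  (((mulX hκ φ₁) ∘L (ContinuousLinearMap.fst ℂ _ _)) +
    ((mulX hκ φ₂) ∘L (ContinuousLinearMap.snd ℂ _ _))).prod
  (((mulX hκ (starX hκ φ₂)) ∘L (ContinuousLinearMap.fst ℂ _ _)) +
    ((mulX hκ (starX hκ φ₁)) ∘L (ContinuousLinearMap.snd ℂ _ _)))

@[simp] theorem BP_apply (hκ : 0 ≤ κ) (φ₁ φ₂ : XK d s κ) (x : XK d s κ × XK d s κ) :
    BP hκ φ₁ φ₂ x = (mulX hκ φ₁ x.1 + mulX hκ φ₂ x.2,
      mulX hκ (starX hκ φ₂) x.1 + mulX hκ (starX hκ φ₁) x.2) := rfl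

theorem BP_JX (hκ : 0 ≤ κ) (φ₁ φ₂ : XK d s κ) (x : XK d s κ × XK d s κ) :
    JX hκ (BP hκ φ₁ φ₂ x) = BP hκ φ₁ φ₂ (JX hκ x) := by
  simp only [BP_apply, JX_apply, starX_add, starX_mulX, starX_starX]
  ext1
  · exact add_comm _ _
  · exact add_comm _ _

/-- Low frequency projection on pairs. -/
noncomputable def lowP (N : ℝ) : (XK d s κ × XK d s κ) →L[ℂ] (XK d s κ × XK d s κ) :=
  (lowX N).prodMap (lowX N)

theorem lowP_apply (N : ℝ) (x : XK d s κ × XK d s κ) :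
    lowP N x = (lowX N x.1, lowX N x.2) := rfl

theorem isCompactOperator_pair {G H₁ H₂ : Type*} [NormedAddCommGroup G] [NormedSpace ℂ G]
    [NormedAddCommGroup H₁] [NormedSpace ℂ H₁] [NormedAddCommGroup H₂] [NormedSpace ℂ H₂]
    {f : G →L[ℂ] H₁} {g : G →L[ℂ] H₂} (hf : IsCompactOperator f) (hg : IsCompactOperator g) :
    IsCompactOperator (f.prod g) := by
  obtain ⟨K₁, hK₁, h₁⟩ := hf
  obtain ⟨K₂, hK₂, h₂⟩ := hg
  refine ⟨K₁ ×ˢ K₂, hK₁.prod hK₂, ?_⟩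
  filter_upwards [h₁, h₂] with x hx₁ hx₂
  exact ⟨hx₁, hx₂⟩

theorem BP_low_compact (hκ : 0 ≤ κ) (φ₁ φ₂ : XK d s κ) (N : ℝ) :
    IsCompactOperator (BP hκ φ₁ φ₂ ∘L lowP N) := by
  have h : BP hκ φ₁ φ₂ ∘L lowP N =
      ((((mulX hκ φ₁) ∘L lowX N) ∘L (ContinuousLinearMap.fst ℂ _ _)) +
        (((mulX hκ φ₂) ∘L lowX N) ∘L (ContinuousLinearMap.snd ℂ _ _))).prod
      ((((mulX hκ (starX hκ φ₂)) ∘L lowX N) ∘L (ContinuousLinearMap.fst ℂ _ _)) +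
        (((mulX hκ (starX hκ φ₁)) ∘L lowX N) ∘L (ContinuousLinearMap.snd ℂ _ _))) :=
    ContinuousLinearMap.ext fun x => rfl
  rw [h]
  have hc : ∀ (φ : XK d s κ) (π : (XK d s κ × XK d s κ) →L[ℂ] XK d s κ),
      IsCompactOperator (((mulX hκ φ) ∘L lowX N) ∘L π) := fun φ π =>
    (isCompactOperator_mulX_lowX hκ φ N).comp_clm π
  exact isCompactOperator_pair ((hc _ _).add (hc _ _)) ((hc _ _).add (hc _ _))

theorem integrable_smul_transX (hκ : 0 ≤ κ) (V f : XK d s κ) :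
    Integrable (fun η => f η • transX hκ η V) := by
  have hint : Integrable (fun η => (2 ^ s * ‖V‖) * (wt κ s η * ‖f η‖)) :=
    (XK.integrable_wt hκ f).const_mul _
  refine hint.mono ((XK.aesm hκ f).smul (continuous_transX hκ V).aestronglyMeasurable)
    (Eventually.of_forall fun η => ?_)
  have h0 := (wt_pos hκ s η).le
  rw [norm_smul, Real.norm_of_nonneg (by positivity)]
  calc ‖f η‖ * ‖transX hκ η V‖ ≤ ‖f η‖ * (2 ^ s * wt κ s η * ‖V‖) := by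
        gcongr
        exact norm_transX_apply_le hκ V η
    _ = _ := by ring

theorem coe_highX (hκ : 0 ≤ κ) (N : ℝ) (f : XK d s κ) :
    ((f - lowX N f : XK d s κ) : E d → ℂ) =ᵐ[volume] fun ξ => if ‖ξ‖ ≤ N then 0 else f ξ := by
  filter_upwards [(ac_nuK hκ).ae_le (Lp.coeFn_sub f (lowX N f)), coe_lowX hκ N f] with ξ h1 h2
  rw [h1, Pi.sub_apply, h2]
  split_ifs <;> simp

theorem m0_starX (hκ : 0 ≤ κ) (φ : XK d s κ) : m0 (starX hκ φ) = m0 φ := by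
  have h1 : m0 (starX hκ φ) = ∫ ξ, ‖φ (-ξ)‖ := by
    refine integral_congr_ae ?_
    filter_upwards [coe_starX hκ φ] with ξ hξ
    rw [hξ, Complex.norm_conj]
  rw [h1, m0, integral_neg_eq_self (fun ξ => ‖φ ξ‖)]

theorem ms_starX (hκ : 0 ≤ κ) (φ : XK d s κ) : ms (starX hκ φ) = ms φ := by
  have h1 : ms (starX hκ φ) = ∫ ξ, (fun ξ => ‖ξ‖ ^ s * ‖φ ξ‖) (-ξ) := by
    refine integral_congr_ae ?_
    filter_upwards [coe_starX hκ φ] with ξ hξ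
    rw [hξ, Complex.norm_conj, norm_neg]
  rw [h1, ms, integral_neg_eq_self (fun ξ => ‖ξ‖ ^ s * ‖φ ξ‖)]

/-- Bound of the free flow after multiplication of the high frequency part. -/
theorem flow_mulX_high (c : ℂ) (σ : ℝ) {C : ℝ} (hC0 : 0 ≤ C)
    (hC : ∀ x y : ℝ, 0 ≤ x → 0 ≤ y → (x + y) ^ s ≤ 2 * x ^ s + C * y ^ s)
    {t : ℝ} (ht : 0 ≤ t) (φ : X1 d s) {N : ℝ} (hN : 0 < N) (f : X1 d s) :
    ‖flowK d s zero_le_one c σ t (mulX zero_le_one φ (f - lowX N f))‖ ≤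
      Real.exp (c.re * t) * ((N ^ s)⁻¹ * m0 φ + Real.exp (-(s * t / 2)) *
        (2 * m0 φ + C * (N ^ s)⁻¹ * ms φ)) * ‖f‖ := by
  rw [mulX_apply]
  exact flow_mul_high c σ hC0 hC ht φ (fun η => transX zero_le_one η φ)
    (fun η => coe_transX zero_le_one η φ) hN f (f - lowX N f) (coe_highX zero_le_one N f)
    (integrable_smul_transX zero_le_one φ (f - lowX N f))

/-- Bound for pairs. -/
theorem flowP_BP_high (c : ℂ) (σ : ℝ) {C : ℝ} (hC0 : 0 ≤ C)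
    (hC : ∀ x y : ℝ, 0 ≤ x → 0 ≤ y → (x + y) ^ s ≤ 2 * x ^ s + C * y ^ s)
    {t : ℝ} (ht : 0 ≤ t) (φ₁ φ₂ : X1 d s) {N : ℝ} (hN : 0 < N) (x : X1 d s × X1 d s) :
    ‖flowP d s zero_le_one c σ t (BP zero_le_one φ₁ φ₂ (x - lowP N x))‖ ≤
      Real.exp (c.re * t) * ((N ^ s)⁻¹ * (m0 φ₁ + m0 φ₂) + Real.exp (-(s * t / 2)) *
        (2 * (m0 φ₁ + m0 φ₂) + C * (N ^ s)⁻¹ * (ms φ₁ + ms φ₂))) * ‖x‖ := by
  have hNs : 0 < N ^ s := by positivity
  have key : ∀ (c' : ℂ) (σ' : ℝ) (ψ₁ ψ₂ : X1 d s), c'.re = c.re →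
      m0 ψ₁ + m0 ψ₂ = m0 φ₁ + m0 φ₂ → ms ψ₁ + ms ψ₂ = ms φ₁ + ms φ₂ →
      ‖flowK d s zero_le_one c' σ' t (mulX zero_le_one ψ₁ (x.1 - lowX N x.1) +
        mulX zero_le_one ψ₂ (x.2 - lowX N x.2))‖ ≤
      Real.exp (c.re * t) * ((N ^ s)⁻¹ * (m0 φ₁ + m0 φ₂) + Real.exp (-(s * t / 2)) *
        (2 * (m0 φ₁ + m0 φ₂) + C * (N ^ s)⁻¹ * (ms φ₁ + ms φ₂))) * ‖x‖ := by
    intro c' σ' ψ₁ ψ₂ hc h0 hs
    rw [map_add]
    refine (norm_add_le _ _).trans ?_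
    have e1 := flow_mulX_high c' σ' hC0 hC ht ψ₁ hN x.1
    have e2 := flow_mulX_high c' σ' hC0 hC ht ψ₂ hN x.2
    rw [hc] at e1 e2
    have a1 := m0_nonneg ψ₁
    have a2 := m0_nonneg ψ₂
    have a3 := ms_nonneg ψ₁
    have a4 := ms_nonneg ψ₂
    have e1' : ‖flowK d s zero_le_one c' σ' t (mulX zero_le_one ψ₁ (x.1 - lowX N x.1))‖ ≤
        Real.exp (c.re * t) * ((N ^ s)⁻¹ * m0 ψ₁ + Real.exp (-(s * t / 2)) *
          (2 * m0 ψ₁ + C * (N ^ s)⁻¹ * ms ψ₁)) * ‖x‖ := by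
      refine e1.trans ?_
      gcongr
      exact norm_fst_le x
    have e2' : ‖flowK d s zero_le_one c' σ' t (mulX zero_le_one ψ₂ (x.2 - lowX N x.2))‖ ≤
        Real.exp (c.re * t) * ((N ^ s)⁻¹ * m0 ψ₂ + Real.exp (-(s * t / 2)) *
          (2 * m0 ψ₂ + C * (N ^ s)⁻¹ * ms ψ₂)) * ‖x‖ := by
      refine e2.trans ?_
      gcongr
      exact norm_snd_le x
    refine (add_le_add e1' e2').trans (le_of_eq ?_)
    rw [← h0, ← hs]
    ring
  have hx : BP zero_le_one φ₁ φ₂ (x - lowP N x) =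
      (mulX zero_le_one φ₁ (x.1 - lowX N x.1) + mulX zero_le_one φ₂ (x.2 - lowX N x.2),
        mulX zero_le_one (starX zero_le_one φ₂) (x.1 - lowX N x.1) +
        mulX zero_le_one (starX zero_le_one φ₁) (x.2 - lowX N x.2)) := rfl
  rw [hx, flowP_apply]
  refine max_le (key c σ φ₁ φ₂ rfl rfl rfl) (key (conj c) (-σ) _ _ (by simp) ?_ ?_)
  · rw [m0_starX, m0_starX, add_comm]
  · rw [ms_starX, ms_starX, add_comm]

/-- **Linear package**: the linearised evolution exists and is quasi-compact. -/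
theorem linear_package {a : ℝ} (ha : 0 < a) (c : ℂ) (hc : c.re = -a) (σ : ℝ) (hs : 1 ≤ s)
    (φ₁ φ₂ : X1 d s) (hsm : 16 * (m0 φ₁ + m0 φ₂) ≤ s) :
    ∃ S : ℝ → (X1 d s × X1 d s) →L[ℂ] (X1 d s × X1 d s),
      IsPert (flowP d s zero_le_one c σ) (BP zero_le_one φ₁ φ₂) S ∧
      Vale.P139.QC.QuasiCompact (S 1) ∧
      ∀ t, 0 ≤ t → ∀ x, JX zero_le_one (S t x) = S t (JX zero_le_one x) := by
  obtain ⟨C, hC0, hC⟩ := exists_pow_split s
  set A := m0 φ₁ + m0 φ₂ with hA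
  set D := ms φ₁ + ms φ₂ with hD
  have hA0 : 0 ≤ A := add_nonneg (m0_nonneg _) (m0_nonneg _)
  have hD0 : 0 ≤ D := add_nonneg (ms_nonneg _) (ms_nonneg _)
  have hs' : (1 : ℝ) ≤ s := by exact_mod_cast hs
  obtain ⟨N, hN, hq⟩ : ∃ N : ℝ, 0 < N ∧ ((N ^ s)⁻¹ * A) / (a - a / 2) +
      (2 * A + C * (N ^ s)⁻¹ * D) / (a + s / 2 - a / 2) < 1 := by
    have h1 : Tendsto (fun N : ℝ => (N ^ s)⁻¹) atTop (𝓝 0) :=
      tendsto_inv_atTop_zero.comp (tendsto_pow_atTop (by omega))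
    have h2 : Tendsto (fun N : ℝ => ((N ^ s)⁻¹ * A) / (a - a / 2) +
        (2 * A + C * (N ^ s)⁻¹ * D) / (a + s / 2 - a / 2)) atTop
        (𝓝 ((0 * A) / (a - a / 2) + (2 * A + C * 0 * D) / (a + s / 2 - a / 2))) :=
      ((h1.mul_const A).div_const _).add
        ((tendsto_const_nhds.add ((h1.const_mul C).mul_const D)).div_const _)
    have h3 : (0 * A) / (a - a / 2) + (2 * A + C * 0 * D) / (a + s / 2 - a / 2) < 1 := by
      have : 0 < a + s / 2 - a / 2 := by linarith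
      rw [zero_mul, zero_div, zero_add, div_lt_one this]
      simp only [mul_zero, zero_mul, add_zero]
      linarith
    obtain ⟨N, h4, h5⟩ := ((h2.eventually (gt_mem_nhds h3)).and
      (eventually_gt_atTop (0 : ℝ))).exists
    exact ⟨N, h5, h4⟩
  have hsplit : BP zero_le_one φ₁ φ₂ = (BP zero_le_one φ₁ φ₂ -
      BP zero_le_one φ₁ φ₂ ∘L lowP N) + BP zero_le_one φ₁ φ₂ ∘L lowP N := by abel
  have hpk := package (flowP_isSG (d := d) (s := s) zero_le_one c σ)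
    (BP zero_le_one φ₁ φ₂ - BP zero_le_one φ₁ φ₂ ∘L lowP N)
    (BP zero_le_one φ₁ φ₂ ∘L lowP N) (BP_low_compact zero_le_one φ₁ φ₂ N)
    (a := a) (b := a + s / 2) (α := (N ^ s)⁻¹ * A) (β := 2 * A + C * (N ^ s)⁻¹ * D)
    (δ := a / 2) (M := 1) (by linarith) (fun t ht => ?_) (by linarith) (by linarith)
    (by positivity) (by positivity) (fun t ht x => ?_) hq
  · obtain ⟨S, hS, hQ⟩ := hpk
    rw [← hsplit] at hS
    exact ⟨S, hS, hQ, fun t ht x => hS.comm_real (JX zero_le_one)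
      (fun t ht x => flowP_JX zero_le_one c σ ht x) (BP_JX zero_le_one φ₁ φ₂) ht x⟩
  · refine (flowP_norm_le zero_le_one c σ ht).trans ?_
    rw [hc, one_mul]
    exact Real.exp_le_exp.2 (by nlinarith)
  · have h1 := flowP_BP_high c σ hC0 hC ht φ₁ φ₂ hN x
    have h2 : (BP zero_le_one φ₁ φ₂ - BP zero_le_one φ₁ φ₂ ∘L lowP N) x =
        BP zero_le_one φ₁ φ₂ (x - lowP N x) := by
      rw [map_sub]; rfl
    rw [h2]
    refine h1.trans (le_of_eq ?_)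
    rw [hc]
    have e1 : Real.exp (-(a * t)) = Real.exp (-a * t) := by ring_nf
    have e2 : Real.exp (-((a + s / 2) * t)) = Real.exp (-a * t) * Real.exp (-(s * t / 2)) := by
      rw [← Real.exp_add]; ring_nf
    rw [e1, e2]
    ring

end Vale.Agent.P139.H42
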