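import Mathlib

/-!
# Strongly continuous semigroups without generators, and their bounded perturbations
-/

open Set Filter Topology MeasureTheory intervalIntegral
open scoped BoundedContinuousFunction

namespace Vale.Agent.P139.H42

variable {E : Type*} [NormedAddCommGroup E] [NormedSpace ℂ E]

/-- A strongly continuous semigroup of bounded operators on a complex normed space. -/
structure IsSG (S : ℝ → E →L[ℂ] E) : Prop where
  zero : S 0 = 1
  add : ∀ s t, 0 ≤ s → 0 ≤ t → S (s + t) = S s * S t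
  cont : ∀ f : E, ContinuousOn (fun t => S t f) (Ici 0)
  bdd : ∃ M w : ℝ, 0 ≤ M ∧ ∀ t, 0 ≤ t → ‖S t‖ ≤ M * Real.exp (w * t)

theorem expInt (c : ℝ) (hc : c ≠ 0) (t : ℝ) :
    ∫ s in (0:ℝ)..t, Real.exp (c * s) = (Real.exp (c * t) - 1) / c := by
  rw [intervalIntegral.integral_comp_mul_left (fun x => Real.exp x) hc, integral_exp]
  simp [div_eq_inv_mul]

namespace IsSG

variable {S : ℝ → E →L[ℂ] E}

theorem apply_zero (hS : IsSG S) (f : E) : S 0 f = f := by simp [hS.zero]

theorem apply_add (hS : IsSG S) {s t : ℝ} (hs : 0 ≤ s) (ht : 0 ≤ t) (f : E) :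
    S (s + t) f = S s (S t f) := by rw [hS.add s t hs ht]; rfl

theorem contMax (hS : IsSG S) (f : E) : Continuous fun t : ℝ => S (max t 0) f := by
  have h : ContinuousOn (fun t => S t f) (Ici (0 : ℝ)) := hS.cont f
  have h2 : Continuous fun t : ℝ => max t 0 := continuous_id.max continuous_const
  have := h.comp_continuous h2 (fun t => by simp)
  exact this

/-- Joint continuity. -/
theorem cont2 (hS : IsSG S) : Continuous fun p : ℝ × E => S (max p.1 0) p.2 := by
  obtain ⟨M, w, hM, hb⟩ := hS.bdd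
  rw [continuous_iff_continuousAt]
  rintro ⟨t₀, x₀⟩
  have h1 : Tendsto (fun p : ℝ × E => S (max p.1 0) x₀) (𝓝 (t₀, x₀)) (𝓝 (S (max t₀ 0) x₀)) :=
    ((hS.contMax x₀).comp continuous_fst).continuousAt
  have h2 : Tendsto (fun p : ℝ × E => S (max p.1 0) (p.2 - x₀)) (𝓝 (t₀, x₀)) (𝓝 0) := by
    apply squeeze_zero_norm (a := fun p : ℝ × E =>
      M * Real.exp (w * max p.1 0) * ‖p.2 - x₀‖)
    · intro p
      calc ‖S (max p.1 0) (p.2 - x₀)‖ ≤ ‖S (max p.1 0)‖ * ‖p.2 - x₀‖ :=
            ContinuousLinearMap.le_opNorm _ _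
        _ ≤ _ := by
            gcongr
            exact hb _ (le_max_right _ _)
    · have : Continuous fun p : ℝ × E => M * Real.exp (w * max p.1 0) * ‖p.2 - x₀‖ := by
        fun_prop
      have h3 := this.tendsto (t₀, x₀)
      simpa using h3
  have h3 := h1.add h2
  simp only [add_zero] at h3
  refine h3.congr fun p => ?_
  rw [← map_add]
  congr 1
  abel

/-- The integrand of the Duhamel integral is jointly continuous. -/
theorem cont_duh (hS : IsSG S) {g : ℝ → E} (hg : Continuous g) :
    Continuous (Function.uncurry fun t s : ℝ => S (max (t - s) 0) (g s)) := by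
  have : (Function.uncurry fun t s : ℝ => S (max (t - s) 0) (g s)) =
      (fun p : ℝ × E => S (max p.1 0) p.2) ∘ fun q : ℝ × ℝ => (q.1 - q.2, g q.2) := by
    ext ⟨t, s⟩; rfl
  rw [this]
  exact hS.cont2.comp ((continuous_fst.sub continuous_snd).prodMk (hg.comp continuous_snd))

theorem duh_eq {g : ℝ → E} {t : ℝ} (ht : 0 ≤ t) :
    ∫ s in (0:ℝ)..t, S (t - s) (g s) = ∫ s in (0:ℝ)..t, S (max (t - s) 0) (g s) := by
  apply intervalIntegral.integral_congr
  intro s hs
  rw [uIcc_of_le ht] at hs
  simp only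
  rw [max_eq_left (by linarith [hs.2])]

theorem cont_duhMax (hS : IsSG S) {g : ℝ → E} (hg : Continuous g) :
    Continuous fun t : ℝ => ∫ s in (0:ℝ)..(max t 0), S (max (max t 0 - s) 0) (g s) := by
  have h := hS.cont_duh hg
  have h2 : Continuous (Function.uncurry fun t s : ℝ => S (max (max t 0 - s) 0) (g s)) := by
    have : (Function.uncurry fun t s : ℝ => S (max (max t 0 - s) 0) (g s)) =
      (Function.uncurry fun t s : ℝ => S (max (t - s) 0) (g s)) ∘
        fun q : ℝ × ℝ => (max q.1 0, q.2) := by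
      ext ⟨t, s⟩; rfl
    rw [this]
    exact h.comp (((continuous_fst.max continuous_const)).prodMk continuous_snd)
  exact intervalIntegral.continuous_parametric_intervalIntegral_of_continuous h2
    (continuous_id.max continuous_const)

theorem intble (hS : IsSG S) {g : ℝ → E} (hg : Continuous g) {t a b : ℝ} (ha : a ≤ b)
    (hb : b ≤ t) : IntervalIntegrable (fun s => S (t - s) (g s)) volume a b := by
  have h1 : Continuous fun s => S (max (t - s) 0) (g s) :=
    (hS.cont_duh hg).comp (continuous_const.prodMk continuous_id : Continuous fun s => (t, s))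
  have h2 : IntervalIntegrable (fun s => S (max (t - s) 0) (g s)) volume a b :=
    h1.intervalIntegrable _ _
  refine h2.congr ?_
  intro s hs
  rw [uIoc_of_le ha] at hs
  simp only
  rw [max_eq_left (by linarith [hs.2])]

/-- rescaling -/
theorem rescale (hS : IsSG S) (δ : ℝ) : IsSG fun t => (Real.exp (δ * t) : ℂ) • S t where
  zero := by simp [hS.zero]
  add s t hs ht := by
    ext f
    simp only [hS.add s t hs ht, mul_add, Real.exp_add, Complex.ofReal_mul,
      _root_.smul_apply, mul_apply_eq_comp, map_smul, smul_smul]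
    rw [mul_comm]
  cont f := by
    have h1 : ContinuousOn (fun t : ℝ => (Real.exp (δ * t) : ℂ)) (Ici 0) := by fun_prop
    exact h1.smul (hS.cont f)
  bdd := by
    obtain ⟨M, w, hM, hb⟩ := hS.bdd
    refine ⟨M, δ + w, hM, fun t ht => ?_⟩
    rw [norm_smul, Complex.norm_real, Real.norm_eq_abs, abs_of_pos (Real.exp_pos _)]
    calc Real.exp (δ * t) * ‖S t‖ ≤ Real.exp (δ * t) * (M * Real.exp (w * t)) := by
          gcongr; exact hb t ht
      _ = M * Real.exp ((δ + w) * t) := by rw [add_mul, Real.exp_add]; ring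

/-- The Volterra operator `v ↦ ∫_0^t S(t-s) B v(s) ds` on bounded continuous functions. -/
noncomputable def volt (S : ℝ → E →L[ℂ] E) (B : E →L[ℂ] E) (v : ℝ → E) (t : ℝ) : E :=
  ∫ s in (0:ℝ)..(max t 0), S (max (max t 0 - s) 0) (B (v s))

theorem volt_cont (hS : IsSG S) (B : E →L[ℂ] E) {v : ℝ → E} (hv : Continuous v) :
    Continuous (volt S B v) := hS.cont_duhMax (B.continuous.comp hv)

theorem volt_of_nonneg (B : E →L[ℂ] E) (v : ℝ → E) {t : ℝ} (ht : 0 ≤ t) :
    volt S B v t = ∫ s in (0:ℝ)..t, S (t - s) (B (v s)) := by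
  unfold volt
  rw [max_eq_left ht]
  exact (duh_eq ht).symm

theorem volt_of_max (B : E →L[ℂ] E) (v : ℝ → E) (t : ℝ) :
    volt S B v t = ∫ s in (0:ℝ)..(max t 0), S (max t 0 - s) (B (v s)) := by
  unfold volt
  exact (duh_eq (le_max_right t 0)).symm

/-- The Volterra operator as a bounded operator on bounded continuous functions. -/
noncomputable def voltCLM (hS : IsSG S) (B : E →L[ℂ] E) (q : ℝ)
    (hq : ∀ v : ℝ →ᵇ E, ∀ t : ℝ, 0 ≤ t → ‖∫ s in (0:ℝ)..t, S (t - s) (B (v s))‖ ≤ q * ‖v‖) :
    (ℝ →ᵇ E) →L[ℂ] (ℝ →ᵇ E) :=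
  LinearMap.mkContinuous
    { toFun := fun v => BoundedContinuousFunction.ofNormedAddCommGroup (volt S B v)
        (hS.volt_cont B v.continuous) (q * ‖v‖) (fun t => by
          rw [volt_of_max]; exact hq v _ (le_max_right _ _))
      map_add' := fun v v' => by
        ext t
        simp only [BoundedContinuousFunction.coe_ofNormedAddCommGroup, volt_of_max,
          BoundedContinuousFunction.coe_add, Pi.add_apply, map_add]
        exact intervalIntegral.integral_add
          (hS.intble (B.continuous.comp v.continuous) (le_max_right _ _) le_rfl)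
          (hS.intble (B.continuous.comp v'.continuous) (le_max_right _ _) le_rfl)
      map_smul' := fun c v => by
        ext t
        simp only [BoundedContinuousFunction.coe_ofNormedAddCommGroup, volt_of_max,
          BoundedContinuousFunction.coe_smul, map_smul, RingHom.id_apply]
        exact intervalIntegral.integral_smul _ _ } q
    (fun v => by
      refine (BoundedContinuousFunction.norm_le ?_).2 fun t => ?_
      · exact (norm_nonneg _).trans (hq v 0 le_rfl)
      · simp only [LinearMap.coe_mk, AddHom.coe_mk,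
          BoundedContinuousFunction.coe_ofNormedAddCommGroup, volt_of_max]
        exact hq v _ (le_max_right _ _))

theorem voltCLM_apply (hS : IsSG S) (B : E →L[ℂ] E) (q : ℝ)
    (hq : ∀ v : ℝ →ᵇ E, ∀ t : ℝ, 0 ≤ t → ‖∫ s in (0:ℝ)..t, S (t - s) (B (v s))‖ ≤ q * ‖v‖)
    (v : ℝ →ᵇ E) (t : ℝ) :
    hS.voltCLM B q hq v t = ∫ s in (0:ℝ)..(max t 0), S (max t 0 - s) (B (v s)) := by
  rw [← volt_of_max]; rfl

theorem voltCLM_norm (hS : IsSG S) (B : E →L[ℂ] E) {q : ℝ} (hq0 : 0 ≤ q)
    (hq : ∀ v : ℝ →ᵇ E, ∀ t : ℝ, 0 ≤ t → ‖∫ s in (0:ℝ)..t, S (t - s) (B (v s))‖ ≤ q * ‖v‖) :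
    ‖hS.voltCLM B q hq‖ ≤ q := LinearMap.mkContinuous_norm_le _ hq0 _

/-- The free orbit, as a bounded operator into bounded continuous functions. -/
noncomputable def orbCLM (hS : IsSG S) (M : ℝ) (hM : ∀ t, 0 ≤ t → ‖S t‖ ≤ M) :
    E →L[ℂ] (ℝ →ᵇ E) :=
  LinearMap.mkContinuous
    { toFun := fun f => BoundedContinuousFunction.ofNormedAddCommGroup (fun t => S (max t 0) f)
        (hS.contMax f) (M * ‖f‖) (fun t => (ContinuousLinearMap.le_opNorm _ _).trans (by
          gcongr; exact hM _ (le_max_right _ _)))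
      map_add' := fun v v' => by
        ext t
        simp
      map_smul' := fun c v => by
        ext t
        simp } M
    (fun f => by
      refine (BoundedContinuousFunction.norm_le ?_).2 fun t => ?_
      · exact mul_nonneg ((norm_nonneg _).trans (hM 0 le_rfl)) (norm_nonneg _)
      · simp only [LinearMap.coe_mk, AddHom.coe_mk,
          BoundedContinuousFunction.coe_ofNormedAddCommGroup]
        exact (ContinuousLinearMap.le_opNorm _ _).trans (by
          gcongr; exact hM _ (le_max_right _ _)))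

theorem orbCLM_apply (hS : IsSG S) (M : ℝ) (hM : ∀ t, 0 ≤ t → ‖S t‖ ≤ M) (f : E) (t : ℝ) :
    hS.orbCLM M hM f t = S (max t 0) f := rfl

theorem orbCLM_norm (hS : IsSG S) (M : ℝ) (hM : ∀ t, 0 ≤ t → ‖S t‖ ≤ M) :
    ‖hS.orbCLM M hM‖ ≤ M :=
  LinearMap.mkContinuous_norm_le _ ((norm_nonneg _).trans (hM 0 le_rfl)) _

/-- Uniqueness for the homogeneous Volterra equation. -/
theorem volt_unique (hS : IsSG S) (B : E →L[ℂ] E) {u : ℝ → E} {T : ℝ}
    (hu : ContinuousOn u (Icc 0 T))
    (h : ∀ t ∈ Icc 0 T, u t = ∫ s in (0:ℝ)..t, S (t - s) (B (u s))) :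
    ∀ t ∈ Icc 0 T, u t = 0 := by
  obtain ⟨M, w, hM, hb⟩ := hS.bdd
  rcases lt_or_ge T 0 with hT | hT
  · intro t ht; exact absurd ht (by rw [Icc_eq_empty (by linarith)]; simp)
  set K : ℝ := M * ‖B‖ with hK
  have hK0 : 0 ≤ K := by positivity
  set l : ℝ := |w| + 2 * K + 1 with hl
  have hcont : ContinuousOn (fun t => Real.exp (-(l * t)) * ‖u t‖) (Icc 0 T) :=
    (by fun_prop : ContinuousOn (fun t => Real.exp (-(l * t))) (Icc 0 T)).mul hu.norm
  obtain ⟨t₁, ht₁, hmax⟩ := isCompact_Icc.exists_isMaxOn (nonempty_Icc.2 hT) hcont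
  set m := Real.exp (-(l * t₁)) * ‖u t₁‖ with hm
  have hm0 : 0 ≤ m := by positivity
  have hle : ∀ s ∈ Icc 0 T, ‖u s‖ ≤ m * Real.exp (l * s) := by
    intro s hs
    have := hmax hs
    simp only [mem_ofPred_eq] at this
    have h2 : ‖u s‖ = Real.exp (-(l * s)) * ‖u s‖ * Real.exp (l * s) := by
      rw [mul_comm (Real.exp _) ‖u s‖, mul_assoc, ← Real.exp_add]; simp
    rw [h2]
    gcongr
  have key : ‖u t₁‖ ≤ (1/2) * (m * Real.exp (l * t₁)) := by
    rw [h t₁ ht₁]
    have hbd : ∀ s ∈ Ioc (0:ℝ) t₁, ‖S (t₁ - s) (B (u s))‖ ≤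
        K * m * Real.exp (|w| * t₁) * Real.exp ((2 * K + 1) * s) := by
      intro s hs
      have hs1 : s ∈ Icc 0 T := ⟨hs.1.le, hs.2.trans ht₁.2⟩
      calc ‖S (t₁ - s) (B (u s))‖ ≤ ‖S (t₁ - s)‖ * (‖B‖ * ‖u s‖) :=
            (ContinuousLinearMap.le_opNorm _ _).trans (by
              gcongr; exact ContinuousLinearMap.le_opNorm _ _)
        _ ≤ (M * Real.exp (|w| * (t₁ - s))) * (‖B‖ * (m * Real.exp (l * s))) := by
            gcongr
            · refine (hb _ (by linarith [hs.2])).trans ?_
              gcongr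
              · linarith [hs.2]
              · exact le_abs_self w
            · exact hle s hs1
        _ = K * m * (Real.exp (|w| * (t₁ - s)) * Real.exp (l * s)) := by rw [hK]; ring
        _ = K * m * Real.exp (|w| * t₁) * Real.exp ((2 * K + 1) * s) := by
            rw [← Real.exp_add, mul_assoc (K * m), ← Real.exp_add]
            congr 2
            rw [hl]; ring
    refine (intervalIntegral.norm_integral_le_of_norm_le ht₁.1
      (Filter.Eventually.of_forall hbd) (Continuous.intervalIntegrable (by fun_prop) _ _)).trans ?_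
    rw [intervalIntegral.integral_const_mul, expInt _ (by positivity) t₁]
    have hc : 0 < 2 * K + 1 := by positivity
    have h2 : Real.exp ((2 * K + 1) * t₁) - 1 ≤ Real.exp ((2 * K + 1) * t₁) := by linarith
    have hk : K / (2 * K + 1) ≤ 1 / 2 := by
      rw [div_le_div_iff₀ hc (by norm_num)]
      linarith
    calc K * m * Real.exp (|w| * t₁) * ((Real.exp ((2 * K + 1) * t₁) - 1) / (2 * K + 1))
        ≤ K * m * Real.exp (|w| * t₁) * (Real.exp ((2 * K + 1) * t₁) / (2 * K + 1)) := by
          gcongr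
      _ = (K / (2 * K + 1)) * (m * (Real.exp (|w| * t₁) * Real.exp ((2 * K + 1) * t₁))) := by
          ring
      _ ≤ (1/2) * (m * (Real.exp (|w| * t₁) * Real.exp ((2 * K + 1) * t₁))) := by
          apply mul_le_mul_of_nonneg_right hk (by positivity)
      _ = _ := by
          rw [← Real.exp_add]
          congr 3
          rw [hl]; ring
  have hmz : m = 0 := by
    have h3 : m * Real.exp (l * t₁) = ‖u t₁‖ := by
      rw [hm, mul_comm (Real.exp _) ‖u t₁‖, mul_assoc, ← Real.exp_add]; simp
    rw [h3] at key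
    have : ‖u t₁‖ = 0 := by linarith [norm_nonneg (u t₁)]
    rw [hm, this, mul_zero]
  intro t ht
  have := hle t ht
  rw [hmz, zero_mul] at this
  exact norm_le_zero_iff.1 this

end IsSG

end Vale.Agent.P139.H42
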