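import Vale.Agent.P139.H42.WX2
import Vale.Agent.P139.H42.SG1

/-!
# The free flow in self-similar variables on weighted L1 densities
-/

open Set Filter Topology MeasureTheory Function
open scoped ENNReal NNReal

namespace Vale.Agent.P139.H42

/-- The weighted measure `(1 + κ |ξ|^s) dξ`. -/
noncomputable def nuV (V : Type*) [NormedAddCommGroup V] [InnerProductSpace ℝ V]
    [FiniteDimensional ℝ V] [MeasurableSpace V] [BorelSpace V] (s : ℕ) (κ : ℝ) : Measure V :=
  (volume : Measure V).withDensity (fun ξ => ENNReal.ofReal (1 + κ * ‖ξ‖ ^ s))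

variable {V : Type*} [NormedAddCommGroup V] [InnerProductSpace ℝ V] [FiniteDimensional ℝ V]
  [MeasurableSpace V] [BorelSpace V] {s : ℕ} {κ : ℝ}

theorem wtk_meas (s : ℕ) (κ : ℝ) : Measurable fun ξ : V => ENNReal.ofReal (1 + κ * ‖ξ‖ ^ s) := by
  fun_prop

theorem nuV_ac (s : ℕ) (κ : ℝ) : nuV V s κ ≪ volume := withDensity_absolutelyContinuous _ _

theorem ac_nuV (s : ℕ) (hκ : 0 ≤ κ) : (volume : Measure V) ≪ nuV V s κ := by
  refine withDensity_absolutelyContinuous' (wtk_meas s κ).aemeasurable ?_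
  refine Filter.Eventually.of_forall fun ξ => ?_
  simp only [ne_eq, ENNReal.ofReal_eq_zero, not_le]
  positivity

theorem lintegral_nuV {f : V → ℝ≥0∞} (hf : Measurable f) :
    ∫⁻ ξ, f ξ ∂(nuV V s κ) = ∫⁻ ξ, ENNReal.ofReal (1 + κ * ‖ξ‖ ^ s) * f ξ := by
  rw [nuV, lintegral_withDensity_eq_lintegral_mul _ (wtk_meas s κ) hf]
  rfl

theorem lintegral_nuV' {f : V → ℝ≥0∞} (hf : AEMeasurable f volume) :
    ∫⁻ ξ, f ξ ∂(nuV V s κ) = ∫⁻ ξ, ENNReal.ofReal (1 + κ * ‖ξ‖ ^ s) * f ξ := by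
  rw [nuV, lintegral_withDensity_eq_lintegral_mul₀ (wtk_meas s κ).aemeasurable hf]
  rfl

instance : IsLocallyFiniteMeasure (nuV V s κ) := by
  refine ⟨fun ξ => ⟨Metric.ball ξ 1, Metric.ball_mem_nhds _ one_pos, ?_⟩⟩
  rw [nuV, withDensity_apply _ measurableSet_ball]
  calc ∫⁻ a in Metric.ball ξ 1, ENNReal.ofReal (1 + κ * ‖a‖ ^ s)
      ≤ ∫⁻ _ in Metric.ball ξ 1, ENNReal.ofReal (1 + |κ| * (‖ξ‖ + 1) ^ s) := by
        refine setLIntegral_mono measurable_const fun a ha => ?_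
        apply ENNReal.ofReal_le_ofReal
        have : ‖a‖ ≤ ‖ξ‖ + 1 := by
          have h1 : ‖a - ξ‖ < 1 := by simpa [dist_eq_norm] using ha
          calc ‖a‖ = ‖ξ + (a - ξ)‖ := by congr 1; abel
            _ ≤ ‖ξ‖ + ‖a - ξ‖ := norm_add_le _ _
            _ ≤ _ := by linarith
        gcongr
        exact le_abs_self κ
    _ = ENNReal.ofReal (1 + |κ| * (‖ξ‖ + 1) ^ s) * volume (Metric.ball ξ 1) := by
        rw [setLIntegral_const]
    _ < ∞ := ENNReal.mul_lt_top ENNReal.ofReal_lt_top measure_ball_lt_top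

/-- The multiplier of the free flow. -/
noncomputable def flowk (V : Type*) [NormedAddCommGroup V] [InnerProductSpace ℝ V]
    (c : ℂ) (σ : ℝ) (t : ℝ) (ξ : V) : ℂ :=
  Complex.exp (((Module.finrank ℝ V : ℂ) / 2 + c) * t -
    Complex.I * σ * ‖ξ‖ ^ 2 * (Real.exp t - 1))

/-- The dilation of the free flow. -/
noncomputable def flowA (V : Type*) [NormedAddCommGroup V] [InnerProductSpace ℝ V]
    (t : ℝ) (ξ : V) : V := Real.exp (t / 2) • ξ

omit [FiniteDimensional ℝ V] [MeasurableSpace V] [BorelSpace V] in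
theorem flowk_norm (c : ℂ) (σ t : ℝ) (ξ : V) :
    ‖flowk V c σ t ξ‖ = Real.exp (((Module.finrank ℝ V : ℝ) / 2 + c.re) * t) := by
  rw [flowk, Complex.norm_exp]
  congr 1
  have h1 : (Complex.I * σ * ‖ξ‖ ^ 2 * (Real.exp t - 1) : ℂ) =
      ((σ * ‖ξ‖ ^ 2 * (Real.exp t - 1) : ℝ) : ℂ) * Complex.I := by push_cast; ring
  rw [Complex.sub_re, h1, Complex.re_ofReal_mul, Complex.I_re, mul_zero, sub_zero]
  have h2 : (((Module.finrank ℝ V : ℂ) / 2 + c) * t) =
      (((Module.finrank ℝ V : ℂ) / 2 + c)) * (t : ℂ) := rfl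
  rw [h2, Complex.re_mul_ofReal]
  congr 1
  rw [Complex.add_re]
  congr 1
  have : ((Module.finrank ℝ V : ℂ) / 2) = (((Module.finrank ℝ V : ℝ) / 2 : ℝ) : ℂ) := by push_cast; ring
  rw [this, Complex.ofReal_re]

omit [FiniteDimensional ℝ V] in
theorem flowk_meas (c : ℂ) (σ t : ℝ) : Measurable (flowk V c σ t) := by
  unfold flowk; fun_prop

omit [FiniteDimensional ℝ V] in
theorem flowA_meas (t : ℝ) : Measurable (flowA V t) := by
  unfold flowA; fun_prop

/-- Change of variables. -/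
theorem lintegral_flow (c : ℂ) (σ t : ℝ) {f : V → ℝ≥0∞} (hf : Measurable f) :
    ∫⁻ ξ, ‖flowk V c σ t ξ‖ₑ * f (flowA V t ξ) ∂(nuV V s κ) =
      ENNReal.ofReal (Real.exp (c.re * t)) *
        ∫⁻ ξ, ENNReal.ofReal (1 + κ * Real.exp (-(s * t / 2)) * ‖ξ‖ ^ s) * f ξ := by
  have hm : Measurable fun ξ => ‖flowk V c σ t ξ‖ₑ * f (flowA V t ξ) :=
    (flowk_meas c σ t).enorm.mul (hf.comp (flowA_meas t))
  rw [lintegral_nuV hm]
  set R : ℝ := Real.exp (t / 2) with hR
  have hR0 : 0 < R := Real.exp_pos _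
  set h : V → ℝ≥0∞ := fun ξ => ENNReal.ofReal (Real.exp (((Module.finrank ℝ V : ℝ) / 2 + c.re) * t)) *
    (ENNReal.ofReal (1 + κ * Real.exp (-(s * t / 2)) * ‖ξ‖ ^ s) * f ξ) with hh
  have hhm : Measurable h := by
    apply Measurable.const_mul
    exact (by fun_prop : Measurable fun ξ : V =>
      ENNReal.ofReal (1 + κ * Real.exp (-(s * t / 2)) * ‖ξ‖ ^ s)).mul hf
  have h1 : ∀ ξ : V, ENNReal.ofReal (1 + κ * ‖ξ‖ ^ s) *
      (‖flowk V c σ t ξ‖ₑ * f (flowA V t ξ)) = h (R • ξ) := by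
    intro ξ
    rw [hh]
    simp only
    have e1 : ‖flowk V c σ t ξ‖ₑ =
        ENNReal.ofReal (Real.exp (((Module.finrank ℝ V : ℝ) / 2 + c.re) * t)) := by
      rw [← ofReal_norm, flowk_norm]
    have e2 : Real.exp (-(s * t / 2)) * ‖R • ξ‖ ^ s = ‖ξ‖ ^ s := by
      rw [norm_smul, Real.norm_of_nonneg hR0.le, mul_pow, ← mul_assoc, hR, ← Real.exp_nat_mul,
        ← Real.exp_add]
      have : -(s * t / 2) + s * (t / 2) = 0 := by ring
      rw [this, Real.exp_zero, one_mul]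
    rw [e1, mul_assoc κ, e2]
    rw [mul_left_comm]
    rfl
  simp only [h1]
  have h2 : ∫⁻ ξ, h (R • ξ) = ∫⁻ ξ, h ξ ∂(Measure.map (R • ·) (volume : Measure V)) := by
    rw [lintegral_map hhm (by fun_prop)]
  have hmm : Measurable fun ξ : V =>
      ENNReal.ofReal (1 + κ * Real.exp (-(s * t / 2)) * ‖ξ‖ ^ s) * f ξ :=
    (by fun_prop : Measurable fun ξ : V =>
      ENNReal.ofReal (1 + κ * Real.exp (-(s * t / 2)) * ‖ξ‖ ^ s)).mul hf
  have e3 : ∫⁻ ξ, h ξ = ENNReal.ofReal (Real.exp (((Module.finrank ℝ V : ℝ) / 2 + c.re) * t)) *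
      ∫⁻ ξ, ENNReal.ofReal (1 + κ * Real.exp (-(s * t / 2)) * ‖ξ‖ ^ s) * f ξ :=
    lintegral_const_mul _ hmm
  rw [h2, Measure.map_addHaar_smul _ hR0.ne', lintegral_smul_measure, e3, smul_eq_mul, ← mul_assoc]
  congr 1
  rw [← ENNReal.ofReal_mul (abs_nonneg _)]
  congr 1
  rw [abs_of_pos (by positivity), hR, ← Real.exp_nat_mul, ← Real.exp_neg, ← Real.exp_add]
  congr 1
  ring

theorem flow_bound (c : ℂ) (σ : ℝ) (hκ : 0 ≤ κ) {t : ℝ} (ht : 0 ≤ t) :
    WBound (nuV V s κ) (flowk V c σ t) (flowA V t) (Real.exp (c.re * t)) := by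
  intro f hf
  rw [lintegral_flow c σ t hf, lintegral_nuV hf]
  gcongr with ξ
  have : Real.exp (-(s * t / 2)) ≤ 1 := Real.exp_le_one_iff.2 (by
    have : 0 ≤ (s : ℝ) * t / 2 := by positivity
    linarith)
  calc κ * Real.exp (-(s * t / 2)) ≤ κ * 1 := by gcongr
    _ = κ := mul_one κ

/-- The free flow. -/
noncomputable def flow (V : Type*) [NormedAddCommGroup V] [InnerProductSpace ℝ V]
    [FiniteDimensional ℝ V] [MeasurableSpace V] [BorelSpace V] (s : ℕ) {κ : ℝ} (hκ : 0 ≤ κ)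
    (c : ℂ) (σ : ℝ) (t : ℝ) : Lp ℂ 1 (nuV V s κ) →L[ℂ] Lp ℂ 1 (nuV V s κ) :=
  wcomp (flowk_meas c σ (max t 0)) (flowA_meas (max t 0)) (Real.exp_pos _).le
    (flow_bound c σ hκ (le_max_right t 0))

variable (c : ℂ) (σ : ℝ) (hκ : 0 ≤ κ)

theorem flow_coe {t : ℝ} (ht : 0 ≤ t) (f : Lp ℂ 1 (nuV V s κ)) :
    flow V s hκ c σ t f =ᵐ[nuV V s κ] fun ξ => flowk V c σ t ξ * f (flowA V t ξ) := by
  have := wcomp_coe (flowk_meas c σ (max t 0)) (flowA_meas (max t 0)) (Real.exp_pos _).le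
    (flow_bound c σ hκ (le_max_right t 0)) f
  filter_upwards [this] with ξ h
  exact h.trans (by rw [max_eq_left ht])

theorem flow_norm_le {t : ℝ} (ht : 0 ≤ t) : ‖flow V s hκ c σ t‖ ≤ Real.exp (c.re * t) := by
  have := wcomp_norm (flowk_meas (V := V) c σ (max t 0)) (flowA_meas (max t 0))
    (Real.exp_pos _).le (flow_bound (s := s) c σ hκ (le_max_right t 0))
  exact this.trans (by rw [max_eq_left ht])

theorem flow_norm {t : ℝ} (ht : 0 ≤ t) (f : Lp ℂ 1 (nuV V s κ)) :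
    ‖flow V s hκ c σ t f‖ = Real.exp (c.re * t) *
      ∫ ξ, (1 + κ * Real.exp (-(s * t / 2)) * ‖ξ‖ ^ s) * ‖f ξ‖ := by
  have hw : ∀ ξ : V, 0 ≤ 1 + κ * Real.exp (-(s * t / 2)) * ‖ξ‖ ^ s := fun ξ => by positivity
  have hfm : Measurable (fun ξ => ‖f ξ‖ₑ) := (Lp.stronglyMeasurable f).measurable.enorm
  rw [norm_X1, integral_eq_lintegral_of_nonneg_ae (Filter.Eventually.of_forall fun ξ =>
      norm_nonneg _) (Lp.aestronglyMeasurable _).norm]
  have h1 : ∫⁻ ξ, ENNReal.ofReal ‖flow V s hκ c σ t f ξ‖ ∂(nuV V s κ) =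
      ∫⁻ ξ, ‖flowk V c σ t ξ‖ₑ * ‖f (flowA V t ξ)‖ₑ ∂(nuV V s κ) := by
    refine lintegral_congr_ae ?_
    filter_upwards [flow_coe c σ hκ ht f] with ξ h
    rw [h, ofReal_norm, enorm_mul]
  rw [h1, lintegral_flow c σ t hfm, ENNReal.toReal_mul, ENNReal.toReal_ofReal (Real.exp_pos _).le]
  congr 1
  rw [integral_eq_lintegral_of_nonneg_ae]
  · congr 1
    refine lintegral_congr fun ξ => ?_
    rw [ENNReal.ofReal_mul (hw ξ), ofReal_norm]
  · exact Filter.Eventually.of_forall fun ξ => mul_nonneg (hw ξ) (norm_nonneg _)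
  · exact ((by fun_prop : Measurable fun ξ : V => (1 + κ * Real.exp (-(s * t / 2)) *
      ‖ξ‖ ^ s)).mul (Lp.stronglyMeasurable f).measurable.norm).aestronglyMeasurable

omit [FiniteDimensional ℝ V] [MeasurableSpace V] [BorelSpace V] in
theorem flowk_add (s' t : ℝ) (ξ : V) :
    flowk V c σ (s' + t) ξ = flowk V c σ s' ξ * flowk V c σ t (flowA V s' ξ) := by
  unfold flowk flowA
  rw [← Complex.exp_add]
  congr 1
  rw [norm_smul, Real.norm_of_nonneg (Real.exp_pos _).le]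
  have h1 : ((Real.exp (s' / 2) * ‖ξ‖ : ℝ) : ℂ) ^ 2 = (Real.exp s' : ℂ) * (‖ξ‖ : ℂ) ^ 2 := by
    push_cast
    rw [mul_pow, ← Complex.exp_nat_mul]
    congr 2
    push_cast
    ring
  rw [h1]
  have h2 : ((Real.exp (s' + t) : ℝ) : ℂ) = (Real.exp s' : ℂ) * (Real.exp t : ℂ) := by
    rw [Real.exp_add]; push_cast; ring
  rw [h2]
  push_cast
  ring

theorem flow_isSG : IsSG (flow V s hκ c σ) where
  zero := by
    ext1 f
    apply Lp.ext
    filter_upwards [flow_coe c σ hκ le_rfl f] with ξ h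
    rw [h]
    simp [flowk, flowA]
  add s' t hs ht := by
    ext1 f
    apply Lp.ext
    rw [mul_apply_eq_comp]
    have h1 := flow_coe c σ hκ (add_nonneg hs ht) f
    have h2 := flow_coe c σ hκ hs (flow V s hκ c σ t f)
    have h3 := flow_coe c σ hκ ht f
    have h4 := (flow_bound c σ hκ hs).congr (flowk_meas c σ s') (flowA_meas s') h3
    filter_upwards [h1, h2, h4] with ξ e1 e2 e4
    rw [e1, e2, e4, flowk_add, mul_assoc]
    congr 2
    unfold flowA
    rw [smul_smul, ← Real.exp_add]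
    congr 3
    ring
  cont f := by
    intro t₀ ht₀
    refine ContinuousAt.continuousWithinAt ?_
    refine strong_cont (C := Real.exp (|c.re| * (max t₀ 0 + 1))) ?_ ?_ f
    · have : ∀ᶠ t in 𝓝 t₀, max t 0 < max t₀ 0 + 1 :=
        (by fun_prop : Continuous fun t : ℝ => max t 0).continuousAt.eventually
          (gt_mem_nhds (by linarith))
      filter_upwards [this] with t ht
      refine (wcomp_norm (flowk_meas c σ (max t 0)) (flowA_meas (max t 0)) (Real.exp_pos _).le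
        (flow_bound c σ hκ (le_max_right t 0))).trans ?_
      apply Real.exp_le_exp.2
      calc c.re * max t 0 ≤ |c.re| * max t 0 := by
            gcongr
            exact le_abs_self _
        _ ≤ _ := by gcongr
    · intro g h1 h2 hg
      refine wcomp_cont (fun t => flowk_meas c σ (max t 0)) (fun t => flowA_meas (max t 0))
        (fun t => (Real.exp_pos _).le) (fun t => flow_bound c σ hκ (le_max_right t 0))
        ?_ ?_ ?_ ?_ g h1 h2 hg
      · intro ξ
        unfold flowk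
        fun_prop
      · intro ξ
        unfold flowA
        fun_prop
      · refine ⟨Real.exp (|(Module.finrank ℝ V : ℝ) / 2 + c.re| * (max t₀ 0 + 1)), ?_⟩
        have : ∀ᶠ t in 𝓝 t₀, max t 0 < max t₀ 0 + 1 :=
          (by fun_prop : Continuous fun t : ℝ => max t 0).continuousAt.eventually
            (gt_mem_nhds (by linarith))
        filter_upwards [this] with t ht ξ
        rw [flowk_norm]
        apply Real.exp_le_exp.2
        calc ((Module.finrank ℝ V : ℝ) / 2 + c.re) * max t 0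
            ≤ |(Module.finrank ℝ V : ℝ) / 2 + c.re| * max t 0 := by
              gcongr
              exact le_abs_self _
          _ ≤ _ := by gcongr
      · intro R
        refine ⟨R, Filter.Eventually.of_forall fun t ξ hξ => ?_⟩
        refine le_trans ?_ hξ
        unfold flowA
        rw [norm_smul, Real.norm_of_nonneg (Real.exp_pos _).le]
        have : 1 ≤ Real.exp (max t 0 / 2) := Real.one_le_exp (by
          have := le_max_right t 0
          linarith)
        nlinarith [norm_nonneg ξ]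
  bdd := ⟨1, c.re, zero_le_one, fun t ht => by
    rw [one_mul]; exact flow_norm_le c σ hκ ht⟩

end Vale.Agent.P139.H42
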