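import Vale.Agent.P139.H42.Pair

/-!
# The real structure commutes with the perturbed semigroup; pairs of free flows
-/

open Set Filter Topology MeasureTheory Function
open scoped ComplexConjugate

namespace Vale.Agent.P139.H42

open Vale.Agent.P139.BU

/-- A real linear bounded map commuting with the free semigroup and the perturbation commutes
with the perturbed semigroup. -/
theorem IsPert.comm_real {E : Type*} [NormedAddCommGroup E] [NormedSpace ℂ E] [CompleteSpace E]
    {S₀ S : ℝ → E →L[ℂ] E} {B : E →L[ℂ] E} (h : IsPert S₀ B S) (J : E →L[ℝ] E)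
    (h0 : ∀ t, 0 ≤ t → ∀ x, J (S₀ t x) = S₀ t (J x)) (hB : ∀ x, J (B x) = B (J x)) {t : ℝ}
    (ht : 0 ≤ t) (x : E) : J (S t x) = S t (J x) := by
  have key := h.sg₀.duh_unique B (u := fun t => J (S t x)) (v := fun t => S t (J x)) (T := t)
    (a := fun t => S₀ t (J x))
    (J.continuous.comp_continuousOn ((h.sg.cont x).mono Icc_subset_Ici_self))
    ((h.sg.cont (J x)).mono Icc_subset_Ici_self) ?_ (fun r hr => h.duh (J x) r hr.1) t
    ⟨ht, le_rfl⟩
  · exact key
  · intro r hr
    rw [h.duh x r hr.1, map_add, h0 r hr.1]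
    congr 1
    have hc : Continuous fun s => B (S (max s 0) x) := B.continuous.comp (h.sg.contMax x)
    have hint : IntervalIntegrable (fun s => S₀ (r - s) (B (S s x))) volume 0 r := by
      refine (h.sg₀.intble hc hr.1 le_rfl).congr ?_
      intro s hs
      rw [uIoc_of_le hr.1] at hs
      simp only [max_eq_left hs.1.le]
    rw [← ContinuousLinearMap.intervalIntegral_comp_comm J hint]
    apply intervalIntegral.integral_congr
    intro s hs
    rw [uIcc_of_le hr.1] at hs
    simp only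
    rw [h0 _ (by linarith [hs.2]), hB]

variable {d s : ℕ} {κ : ℝ}

theorem flowk_conj (c : ℂ) (σ t : ℝ) (ξ : E d) :
    conj (flowk (E d) c σ t ξ) = flowk (E d) (conj c) (-σ) t ξ := by
  unfold flowk
  rw [← Complex.exp_conj]
  congr 1
  simp only [map_sub, map_mul, map_add, map_div₀, Complex.conj_ofReal, Complex.conj_I, map_pow,
    map_one, map_natCast]
  have : conj (2 : ℂ) = 2 := by
    rw [show (2 : ℂ) = ((2 : ℝ) : ℂ) by norm_num, Complex.conj_ofReal]
  rw [this]
  push_cast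
  ring

theorem flowk_neg (c : ℂ) (σ t : ℝ) (ξ : E d) : flowk (E d) c σ t (-ξ) = flowk (E d) c σ t ξ := by
  unfold flowk; rw [norm_neg]

theorem star_flowK (hκ : 0 ≤ κ) (c : ℂ) (σ : ℝ) {t : ℝ} (ht : 0 ≤ t) (f : XK d s κ) :
    starX hκ (flowK d s hκ c σ t f) = flowK d s hκ (conj c) (-σ) t (starX hκ f) := by
  apply XK.ext_ae
  have hq : Measure.QuasiMeasurePreserving (flowA (E d) t) volume volume := by
    refine ⟨flowA_meas t, ?_⟩
    have h1 : (flowA (E d) t) = (Real.exp (t / 2) • ·) := by ext1 ξ; rfl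
    rw [h1, Measure.map_addHaar_smul _ (Real.exp_pos _).ne']
    exact Measure.smul_absolutelyContinuous
  have h1 := coe_starX hκ (flowK d s hκ c σ t f)
  have h2 := ae_neg (flowK_coe hκ c σ ht f)
  have h3 := flowK_coe hκ (conj c) (-σ) ht (starX hκ f)
  have h4 := hq.ae (coe_starX hκ f)
  filter_upwards [h1, h2, h3, h4] with ξ e1 e2 e3 e4
  rw [e1, e2, e3, e4, map_mul, flowk_neg, flowk_conj]
  congr 3
  unfold flowA
  rw [smul_neg]

/-- The free flow on pairs: second component is the mirror of the first one. -/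
noncomputable def flowP (d s : ℕ) {κ : ℝ} (hκ : 0 ≤ κ) (c : ℂ) (σ : ℝ) (t : ℝ) :
    (XK d s κ × XK d s κ) →L[ℂ] (XK d s κ × XK d s κ) :=
  (flowK d s hκ c σ t).prodMap (flowK d s hκ (conj c) (-σ) t)

theorem flowP_isSG (hκ : 0 ≤ κ) (c : ℂ) (σ : ℝ) : IsSG (flowP d s hκ c σ) :=
  (flowK_isSG hκ c σ).prod (flowK_isSG hκ (conj c) (-σ))

@[simp] theorem flowP_apply (hκ : 0 ≤ κ) (c : ℂ) (σ t : ℝ) (x : XK d s κ × XK d s κ) :
    flowP d s hκ c σ t x = (flowK d s hκ c σ t x.1, flowK d s hκ (conj c) (-σ) t x.2) := rfl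

theorem flowP_norm_le (hκ : 0 ≤ κ) (c : ℂ) (σ : ℝ) {t : ℝ} (ht : 0 ≤ t) :
    ‖flowP d s hκ c σ t‖ ≤ Real.exp (c.re * t) := by
  refine ContinuousLinearMap.opNorm_le_bound _ (Real.exp_pos _).le fun x => ?_
  rw [flowP_apply]
  refine max_le ?_ ?_
  · refine ((flowK d s hκ c σ t).le_opNorm _).trans ?_
    gcongr
    · exact flowK_norm_le hκ c σ ht
    · exact norm_fst_le x
  · refine ((flowK d s hκ (conj c) (-σ) t).le_opNorm _).trans ?_
    gcongr
    · have := flowK_norm_le (d := d) (s := s) hκ (conj c) (-σ) ht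
      simpa using this
    · exact norm_snd_le x

theorem flowP_JX (hκ : 0 ≤ κ) (c : ℂ) (σ : ℝ) {t : ℝ} (ht : 0 ≤ t) (x : XK d s κ × XK d s κ) :
    JX hκ (flowP d s hκ c σ t x) = flowP d s hκ c σ t (JX hκ x) := by
  rw [flowP_apply, JX_apply, JX_apply, flowP_apply]
  rw [star_flowK hκ c σ ht, star_flowK hκ (conj c) (-σ) ht]
  simp

end Vale.Agent.P139.H42
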