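import Vale.Agent.P139.H42.SG4
import Vale.Agent.P139.H694.QCSemi

/-!
# Quasi-compactness of perturbed semigroups, abstract package
-/

open Set Filter Topology MeasureTheory intervalIntegral Function
open scoped BoundedContinuousFunction

namespace Vale.Agent.P139.H42

variable {E : Type*} [NormedAddCommGroup E] [NormedSpace ℂ E]

theorem IsSG.isC0 {S : ℝ → E →L[ℂ] E} (h : IsSG S) : Vale.P139.QC.IsC0 S :=
  ⟨h.zero, h.add, h.cont⟩

theorem IsSG.pow_eq {S : ℝ → E →L[ℂ] E} (h : IsSG S) (n : ℕ) : (S 1) ^ n = S n :=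
  (h.isC0.nat n).symm

/-- Volterra bound from an exponential bound of `S₀(r) B`. -/
theorem volterra_le {S₀ : ℝ → E →L[ℂ] E} {B : E →L[ℂ] E} {a b α β δ : ℝ}
    (hδa : δ < a) (hδb : δ < b) (hα : 0 ≤ α) (hβ : 0 ≤ β)
    (hB : ∀ r, 0 ≤ r → ∀ x, ‖S₀ r (B x)‖ ≤
      (α * Real.exp (-(a * r)) + β * Real.exp (-(b * r))) * ‖x‖) (v : ℝ →ᵇ E) {t : ℝ}
    (ht : 0 ≤ t) :
    ‖∫ s in (0:ℝ)..t, (Real.exp (δ * (t - s)) : ℂ) • S₀ (t - s) (B (v s))‖ ≤
      (α / (a - δ) + β / (b - δ)) * ‖v‖ := by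
  have ha : 0 < a - δ := by linarith
  have hb : 0 < b - δ := by linarith
  have hbd : ∀ s ∈ Ioc (0:ℝ) t, ‖(Real.exp (δ * (t - s)) : ℂ) • S₀ (t - s) (B (v s))‖ ≤
      α * ‖v‖ * Real.exp (-((a - δ) * t)) * Real.exp ((a - δ) * s) +
      β * ‖v‖ * Real.exp (-((b - δ) * t)) * Real.exp ((b - δ) * s) := by
    intro s hs
    rw [norm_smul, Complex.norm_real, Real.norm_eq_abs, abs_of_pos (Real.exp_pos _)]
    calc Real.exp (δ * (t - s)) * ‖S₀ (t - s) (B (v s))‖
        ≤ Real.exp (δ * (t - s)) * ((α * Real.exp (-(a * (t - s))) +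
            β * Real.exp (-(b * (t - s)))) * ‖v‖) := by
          gcongr
          refine (hB _ (by linarith [hs.2]) _).trans ?_
          gcongr
          exact v.norm_coe_le_norm s
      _ = α * ‖v‖ * (Real.exp (δ * (t - s)) * Real.exp (-(a * (t - s)))) +
          β * ‖v‖ * (Real.exp (δ * (t - s)) * Real.exp (-(b * (t - s)))) := by ring
      _ = _ := by
          rw [mul_assoc (α * ‖v‖), mul_assoc (β * ‖v‖), ← Real.exp_add, ← Real.exp_add,
            ← Real.exp_add, ← Real.exp_add]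
          congr 3 <;> ring
  refine (intervalIntegral.norm_integral_le_of_norm_le ht
    (Filter.Eventually.of_forall hbd) (Continuous.intervalIntegrable (by fun_prop) _ _)).trans ?_
  rw [intervalIntegral.integral_add (Continuous.intervalIntegrable (by fun_prop) _ _)
    (Continuous.intervalIntegrable (by fun_prop) _ _), intervalIntegral.integral_const_mul,
    intervalIntegral.integral_const_mul, expInt _ ha.ne' t, expInt _ hb.ne' t]
  have key : ∀ c γ : ℝ, 0 < c → 0 ≤ γ →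
      γ * ‖v‖ * Real.exp (-(c * t)) * ((Real.exp (c * t) - 1) / c) ≤ γ / c * ‖v‖ := by
    intro c γ hc hγ
    calc γ * ‖v‖ * Real.exp (-(c * t)) * ((Real.exp (c * t) - 1) / c)
        ≤ γ * ‖v‖ * Real.exp (-(c * t)) * (Real.exp (c * t) / c) := by
          gcongr
          linarith
      _ = γ / c * ‖v‖ * (Real.exp (-(c * t)) * Real.exp (c * t)) := by ring
      _ = γ / c * ‖v‖ := by rw [← Real.exp_add]; simp
  have h1 := key _ α ha hα
  have h2 := key _ β hb hβ
  linarith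

variable [CompleteSpace E]

/-- The abstract package: existence and quasi-compactness of the perturbed semigroup. -/
theorem package {S₀ : ℝ → E →L[ℂ] E} (hS : IsSG S₀) (B K : E →L[ℂ] E)
    (hK : IsCompactOperator K) {a b α β δ M : ℝ} (hδ : 0 < δ)
    (hM : ∀ t, 0 ≤ t → ‖S₀ t‖ ≤ M * Real.exp (-(δ * t)))
    (hδa : δ < a) (hδb : δ < b) (hα : 0 ≤ α) (hβ : 0 ≤ β)
    (hB : ∀ r, 0 ≤ r → ∀ x, ‖S₀ r (B x)‖ ≤
      (α * Real.exp (-(a * r)) + β * Real.exp (-(b * r))) * ‖x‖)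
    (hq : α / (a - δ) + β / (b - δ) < 1) :
    ∃ S : ℝ → E →L[ℂ] E, IsPert S₀ (B + K) S ∧ Vale.P139.QC.QuasiCompact (S 1) := by
  have hq0 : 0 ≤ α / (a - δ) + β / (b - δ) := by
    have : 0 < a - δ := by linarith
    have : 0 < b - δ := by linarith
    positivity
  obtain ⟨D, hD, hDb⟩ := pert_rate hS B hM hq0 hq
    (fun v t ht => volterra_le hδa hδb hα hβ hB v ht)
  obtain ⟨S, hP⟩ := pert_exists hD.sg K
  refine ⟨S, hD.trans hP, ?_⟩
  obtain ⟨K₁, hK₁, hS1⟩ := hP.exists_compact hK zero_le_one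
  refine Vale.P139.QC.QuasiCompact.of_geometric hS1 (C := M / (1 - (α / (a - δ) + β / (b - δ))))
    (ρ := Real.exp (-δ)) (by rw [Real.exp_lt_one_iff]; linarith) (Real.exp_pos _).le ?_ hK₁
  intro n
  rw [hD.sg.pow_eq]
  refine (hDb n (Nat.cast_nonneg n)).trans (le_of_eq ?_)
  rw [← Real.exp_nat_mul]
  congr 2
  ring

end Vale.Agent.P139.H42
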