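import Vale.Agent.P139.H42.Pack
import Vale.Agent.P139.H42.WX3
import Vale.Agent.P139.BU.WX

/-!
# Pairs, the free flow on `XK`, split bounds
-/

open Set Filter Topology MeasureTheory Function

namespace Vale.Agent.P139.H42

open Vale.Agent.P139.BU

/-- Product of two semigroups. -/
theorem IsSG.prod {E₁ E₂ : Type*} [NormedAddCommGroup E₁] [NormedSpace ℂ E₁]
    [NormedAddCommGroup E₂] [NormedSpace ℂ E₂] {S₁ : ℝ → E₁ →L[ℂ] E₁} {S₂ : ℝ → E₂ →L[ℂ] E₂}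
    (h₁ : IsSG S₁) (h₂ : IsSG S₂) : IsSG fun t => (S₁ t).prodMap (S₂ t) where
  zero := by ext x <;> simp [h₁.zero, h₂.zero]
  add s t hs ht := by
    ext x <;> simp [h₁.add s t hs ht, h₂.add s t hs ht]
  cont x := by
    have := (h₁.cont x.1).prodMk (h₂.cont x.2)
    exact this
  bdd := by
    obtain ⟨M₁, w₁, hM₁, hb₁⟩ := h₁.bdd
    obtain ⟨M₂, w₂, hM₂, hb₂⟩ := h₂.bdd
    refine ⟨max M₁ M₂, max w₁ w₂, le_max_of_le_left hM₁, fun t ht => ?_⟩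
    refine ContinuousLinearMap.opNorm_le_bound _ (by positivity) fun x => ?_
    have e1 : ‖S₁ t x.1‖ ≤ max M₁ M₂ * Real.exp (max w₁ w₂ * t) * ‖x‖ := by
      refine ((S₁ t).le_opNorm _).trans ?_
      gcongr
      · refine (hb₁ t ht).trans ?_
        gcongr
        · exact le_max_left _ _
        · exact le_max_left _ _
      · exact norm_fst_le x
    have e2 : ‖S₂ t x.2‖ ≤ max M₁ M₂ * Real.exp (max w₁ w₂ * t) * ‖x‖ := by
      refine ((S₂ t).le_opNorm _).trans ?_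
      gcongr
      · refine (hb₂ t ht).trans ?_
        gcongr
        · exact le_max_right _ _
        · exact le_max_right _ _
      · exact norm_snd_le x
    exact max_le e1 e2

/-- `(x + y)^s ≤ 2 x^s + C y^s`. -/
theorem exists_pow_split (s : ℕ) : ∃ C : ℝ, 0 ≤ C ∧ ∀ x y : ℝ, 0 ≤ x → 0 ≤ y →
    (x + y) ^ s ≤ 2 * x ^ s + C * y ^ s := by
  obtain ⟨θ, hθ0, hθ⟩ : ∃ θ : ℝ, 0 < θ ∧ (1 + θ) ^ s ≤ 2 := by
    have h1 : Tendsto (fun θ : ℝ => (1 + θ) ^ s) (𝓝[>] 0) (𝓝 ((1 + 0) ^ s)) :=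
      ((by fun_prop : Continuous fun θ : ℝ => (1 + θ) ^ s).tendsto 0).mono_left nhdsWithin_le_nhds
    simp only [add_zero, one_pow] at h1
    obtain ⟨θ, h2, h3⟩ := ((h1.eventually (gt_mem_nhds one_lt_two)).and
      self_mem_nhdsWithin).exists
    exact ⟨θ, h3, h2.le⟩
  refine ⟨(1 / θ + 1) ^ s, by positivity, fun x y hx hy => ?_⟩
  rcases le_total y (θ * x) with h | h
  · calc (x + y) ^ s ≤ (x + θ * x) ^ s := by gcongr
      _ = (1 + θ) ^ s * x ^ s := by rw [← mul_pow]; ring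
      _ ≤ 2 * x ^ s := by gcongr
      _ ≤ _ := by
          have : 0 ≤ (1 / θ + 1) ^ s * y ^ s := by positivity
          linarith
  · have h2 : x ≤ 1 / θ * y := by
      rw [one_div, ← div_eq_inv_mul, le_div_iff₀ hθ0]; linarith
    calc (x + y) ^ s ≤ (1 / θ * y + y) ^ s := by gcongr
      _ = (1 / θ + 1) ^ s * y ^ s := by rw [← mul_pow]; ring
      _ ≤ _ := by
          have : 0 ≤ 2 * x ^ s := by positivity
          linarith

variable {d s : ℕ} {κ : ℝ}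

/-- The free flow on `XK`. -/
noncomputable def flowK (d s : ℕ) {κ : ℝ} (hκ : 0 ≤ κ) (c : ℂ) (σ : ℝ) (t : ℝ) :
    XK d s κ →L[ℂ] XK d s κ := flow (E d) s hκ c σ t

theorem flowK_isSG (hκ : 0 ≤ κ) (c : ℂ) (σ : ℝ) : IsSG (flowK d s hκ c σ) := flow_isSG c σ hκ

theorem flowK_coe (hκ : 0 ≤ κ) (c : ℂ) (σ : ℝ) {t : ℝ} (ht : 0 ≤ t) (f : XK d s κ) :
    (flowK d s hκ c σ t f : E d → ℂ) =ᵐ[volume] fun ξ => flowk (E d) c σ t ξ *
      f (flowA (E d) t ξ) :=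
  (ac_nuK hκ).ae_le (flow_coe c σ hκ ht f)

theorem flowK_norm (hκ : 0 ≤ κ) (c : ℂ) (σ : ℝ) {t : ℝ} (ht : 0 ≤ t) (f : XK d s κ) :
    ‖flowK d s hκ c σ t f‖ = Real.exp (c.re * t) *
      ∫ ξ, (1 + κ * Real.exp (-(s * t / 2)) * ‖ξ‖ ^ s) * ‖f ξ‖ := flow_norm c σ hκ ht f

theorem flowK_norm_le (hκ : 0 ≤ κ) (c : ℂ) (σ : ℝ) {t : ℝ} (ht : 0 ≤ t) :
    ‖flowK d s hκ c σ t‖ ≤ Real.exp (c.re * t) := flow_norm_le c σ hκ ht

/-- The unweighted norm. -/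
noncomputable def m0 (f : XK d s κ) : ℝ := ∫ ξ, ‖f ξ‖

/-- The top moment. -/
noncomputable def ms (f : XK d s κ) : ℝ := ∫ ξ, ‖ξ‖ ^ s * ‖f ξ‖

theorem m0_nonneg (f : XK d s κ) : 0 ≤ m0 f := integral_nonneg fun _ => norm_nonneg _

theorem ms_nonneg (f : XK d s κ) : 0 ≤ ms f := integral_nonneg fun _ => by positivity

/-- Bound of the free flow on a translate. -/
theorem flowK_translate (hκ : 0 < κ) (c : ℂ) (σ : ℝ) {C : ℝ}
    (hC : ∀ x y : ℝ, 0 ≤ x → 0 ≤ y → (x + y) ^ s ≤ 2 * x ^ s + C * y ^ s)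
    {t : ℝ} (ht : 0 ≤ t) (f g : XK d s κ) (η : E d)
    (h : (g : E d → ℂ) =ᵐ[volume] fun ξ => f (ξ - η)) :
    ‖flowK d s hκ.le c σ t g‖ ≤ Real.exp (c.re * t) *
      ((1 + 2 * κ * Real.exp (-(s * t / 2)) * ‖η‖ ^ s) * m0 f +
        κ * Real.exp (-(s * t / 2)) * C * ms f) := by
  rw [flowK_norm hκ.le c σ ht g]
  gcongr
  set e : ℝ := κ * Real.exp (-(s * t / 2)) with he
  have he0 : 0 ≤ e := by positivity
  have h1 : ∫ ξ, (1 + e * ‖ξ‖ ^ s) * ‖g ξ‖ = ∫ ξ, (1 + e * ‖ξ + η‖ ^ s) * ‖f ξ‖ := by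
    have h2 : ∫ ξ, (1 + e * ‖ξ‖ ^ s) * ‖g ξ‖ =
        ∫ ξ, (fun ζ : E d => (1 + e * ‖ζ + η‖ ^ s) * ‖f ζ‖) (ξ - η) := by
      refine integral_congr_ae ?_
      filter_upwards [h] with ξ hξ
      rw [hξ]
      simp
    rw [h2, integral_sub_right_eq_self (fun ζ : E d => (1 + e * ‖ζ + η‖ ^ s) * ‖f ζ‖)]
  rw [h1]
  have hi1 : Integrable fun ξ => ‖f ξ‖ := (XK.integrable hκ.le f).norm
  have hi2 : Integrable fun ξ => ‖ξ‖ ^ s * ‖f ξ‖ := XK.moment hκ f le_rfl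
  have h3 : ∫ ξ, (1 + e * ‖ξ + η‖ ^ s) * ‖f ξ‖ ≤
      ∫ ξ, ((1 + 2 * e * ‖η‖ ^ s) * ‖f ξ‖ + e * C * (‖ξ‖ ^ s * ‖f ξ‖)) := by
    refine integral_mono_of_nonneg (Filter.Eventually.of_forall fun ξ => by positivity)
      ((hi1.const_mul _).add (hi2.const_mul _)) (Filter.Eventually.of_forall fun ξ => ?_)
    simp only
    have h4 : ‖ξ + η‖ ^ s ≤ 2 * ‖η‖ ^ s + C * ‖ξ‖ ^ s := by
      refine le_trans ?_ (hC ‖η‖ ‖ξ‖ (norm_nonneg _) (norm_nonneg _))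
      gcongr
      rw [add_comm ‖η‖]
      exact norm_add_le _ _
    calc (1 + e * ‖ξ + η‖ ^ s) * ‖f ξ‖ ≤ (1 + e * (2 * ‖η‖ ^ s + C * ‖ξ‖ ^ s)) * ‖f ξ‖ := by
          gcongr
      _ = _ := by ring
  refine h3.trans (le_of_eq ?_)
  rw [integral_add (hi1.const_mul _) (hi2.const_mul _), integral_const_mul, integral_const_mul,
    m0, ms, he]
  ring

end Vale.Agent.P139.H42
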