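import Vale.Agent.P139.H42.SG1

/-!
# Bounded perturbations of strongly continuous semigroups
-/

open Set Filter Topology MeasureTheory intervalIntegral
open scoped BoundedContinuousFunction

namespace Vale.Agent.P139.H42

variable {E : Type*} [NormedAddCommGroup E] [NormedSpace ℂ E]

/-- `S` is the perturbation of `S₀` by the bounded operator `B`. -/
structure IsPert (S₀ : ℝ → E →L[ℂ] E) (B : E →L[ℂ] E) (S : ℝ → E →L[ℂ] E) : Prop where
  sg₀ : IsSG S₀
  sg : IsSG S
  duh : ∀ f : E, ∀ t, 0 ≤ t → S t f = S₀ t f + ∫ s in (0:ℝ)..t, S₀ (t - s) (B (S s f))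

/-- Uniqueness for the inhomogeneous problem. -/
theorem IsSG.duh_unique {S₀ : ℝ → E →L[ℂ] E} (hS : IsSG S₀) (B : E →L[ℂ] E) {u v : ℝ → E}
    {T : ℝ} {a : ℝ → E} (hu : ContinuousOn u (Icc 0 T)) (hv : ContinuousOn v (Icc 0 T))
    (h : ∀ t ∈ Icc 0 T, u t = a t + ∫ s in (0:ℝ)..t, S₀ (t - s) (B (u s)))
    (h' : ∀ t ∈ Icc 0 T, v t = a t + ∫ s in (0:ℝ)..t, S₀ (t - s) (B (v s))) :
    ∀ t ∈ Icc 0 T, u t = v t := by
  rcases lt_or_ge T 0 with hT | hT
  · intro t ht; exact absurd ht (by rw [Icc_eq_empty (by linarith)]; simp)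
  -- continuous extensions
  have hint : ∀ w : ℝ → E, ContinuousOn w (Icc 0 T) → ∀ t ∈ Icc 0 T,
      IntervalIntegrable (fun s => S₀ (t - s) (B (w s))) volume 0 t := by
    intro w hw t ht
    set w' : ℝ → E := fun s => w (max 0 (min s T)) with hw'
    have hc : Continuous w' := by
      apply hw.comp_continuous (by fun_prop)
      intro s
      exact ⟨le_max_left _ _, max_le hT (min_le_right _ _)⟩
    refine (hS.intble (B.continuous.comp hc) ht.1 le_rfl).congr ?_
    intro s hs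
    rw [uIoc_of_le ht.1] at hs
    have : max 0 (min s T) = s := by
      rw [min_eq_left (hs.2.trans ht.2), max_eq_right hs.1.le]
    simp only [Function.comp_apply, hw', this]
  have key := hS.volt_unique B (u := fun t => u t - v t) (T := T) (hu.sub hv) ?_
  · intro t ht
    exact sub_eq_zero.1 (key t ht)
  · intro t ht
    rw [h t ht, h' t ht]
    have h3 : ∀ s, S₀ (t - s) (B (u s - v s)) = S₀ (t - s) (B (u s)) - S₀ (t - s) (B (v s)) := by
      intro s; simp only [map_sub]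
    simp only [h3]
    rw [intervalIntegral.integral_sub (hint u hu t ht) (hint v hv t ht)]
    abel

variable [CompleteSpace E]

/-- Splitting the Duhamel integral. -/
theorem IsSG.duh_shift {S : ℝ → E →L[ℂ] E} (hS : IsSG S) {g : ℝ → E} (hg : Continuous g)
    {s r : ℝ} (hs : 0 ≤ s) (hr : 0 ≤ r) :
    ∫ x in (0:ℝ)..(s + r), S (s + r - x) (g x) =
      S r (∫ x in (0:ℝ)..s, S (s - x) (g x)) + ∫ x in (0:ℝ)..r, S (r - x) (g (s + x)) := by
  have h1 : ∫ x in (0:ℝ)..(s + r), S (s + r - x) (g x) =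
      (∫ x in (0:ℝ)..s, S (s + r - x) (g x)) + ∫ x in s..(s + r), S (s + r - x) (g x) := by
    rw [intervalIntegral.integral_add_adjacent_intervals]
    · exact hS.intble hg hs (by linarith)
    · exact hS.intble hg (by linarith) le_rfl
  rw [h1]
  congr 1
  · have h2 : ∫ x in (0:ℝ)..s, S (s + r - x) (g x) = ∫ x in (0:ℝ)..s, S r (S (s - x) (g x)) := by
      apply intervalIntegral.integral_congr
      intro x hx
      rw [uIcc_of_le hs] at hx
      simp only
      rw [← hS.apply_add hr (by linarith [hx.2])]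
      congr 2
      ring
    rw [h2]
    exact ContinuousLinearMap.intervalIntegral_comp_comm _ (hS.intble hg hs le_rfl)
  · have h3 := intervalIntegral.integral_comp_add_left (a := 0) (b := r)
      (fun x => S (s + r - x) (g x)) s
    rw [add_zero] at h3
    rw [← h3]
    apply intervalIntegral.integral_congr
    intro x _
    simp only
    congr 2
    ring

/-- Perturbation theorem, normalised: bounded semigroup, contractive Volterra operator. -/
theorem pert_aux {S₀ : ℝ → E →L[ℂ] E} (hS : IsSG S₀) (B : E →L[ℂ] E) {M q : ℝ}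
    (hM : ∀ t, 0 ≤ t → ‖S₀ t‖ ≤ M) (hq0 : 0 ≤ q) (hq1 : q < 1)
    (hq : ∀ v : ℝ →ᵇ E, ∀ t : ℝ, 0 ≤ t → ‖∫ s in (0:ℝ)..t, S₀ (t - s) (B (v s))‖ ≤ q * ‖v‖) :
    ∃ S : ℝ → E →L[ℂ] E, IsPert S₀ B S ∧ ∀ t, 0 ≤ t → ‖S t‖ ≤ M / (1 - q) := by
  have hM0 : 0 ≤ M := (norm_nonneg _).trans (hM 0 le_rfl)
  set V := hS.voltCLM B q hq with hV
  have hVn : ‖V‖ < 1 := (hS.voltCLM_norm B hq0 hq).trans_lt hq1
  have hVn' : ‖V‖ ≤ q := (hS.voltCLM_norm B hq0 hq)
  -- the inverse of 1 - V
  have hu : IsUnit (1 - V) := isUnit_one_sub_of_norm_lt_one hVn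
  obtain ⟨R, hWR, -⟩ := hu.exists_right_inv.imp fun R hR => And.intro hR trivial
  have hfix : ∀ g : ℝ →ᵇ E, R g = g + V (R g) := by
    intro g
    have := congrArg (fun L => L g) hWR
    simp only [mul_apply_eq_comp] at this
    have h2 : R g - V (R g) = g := by simpa using this
    exact (sub_eq_iff_eq_add.1 h2)
  have hRn : ∀ g : ℝ →ᵇ E, ‖R g‖ ≤ ‖g‖ / (1 - q) := by
    intro g
    have h1 : ‖R g‖ ≤ ‖g‖ + q * ‖R g‖ := by
      calc ‖R g‖ = ‖g + V (R g)‖ := by rw [← hfix]
        _ ≤ ‖g‖ + ‖V‖ * ‖R g‖ := (norm_add_le _ _).trans (by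
            gcongr; exact ContinuousLinearMap.le_opNorm _ _)
        _ ≤ _ := by gcongr
    rw [le_div_iff₀ (by linarith)]
    linarith
  set O := hS.orbCLM M hM with hO
  set S : ℝ → E →L[ℂ] E := fun t =>
    (BoundedContinuousFunction.evalCLM ℂ t : (ℝ →ᵇ E) →L[ℂ] E) ∘L R ∘L O with hSdef
  have hSa : ∀ t f, S t f = R (O f) t := fun t f => rfl
  have hduh : ∀ f : E, ∀ t, 0 ≤ t → S t f = S₀ t f + ∫ s in (0:ℝ)..t, S₀ (t - s) (B (S s f)) := by
    intro f t ht
    rw [hSa, hfix, BoundedContinuousFunction.coe_add, Pi.add_apply, hO,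
      IsSG.orbCLM_apply, hV, IsSG.voltCLM_apply, max_eq_left ht]
    simp only [hSa, hO]
  have hcont : ∀ f, Continuous fun t => S t f := fun f => (R (O f)).continuous
  have hbd : ∀ t, ‖S t‖ ≤ M / (1 - q) := by
    intro t
    refine ContinuousLinearMap.opNorm_le_bound _ (div_nonneg hM0 (by linarith)) fun f => ?_
    rw [hSa]
    calc ‖R (O f) t‖ ≤ ‖R (O f)‖ := BoundedContinuousFunction.norm_coe_le_norm _ _
      _ ≤ ‖O f‖ / (1 - q) := hRn _
      _ ≤ (M * ‖f‖) / (1 - q) := by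
          have : ‖O f‖ ≤ M * ‖f‖ := (ContinuousLinearMap.le_opNorm _ _).trans (by
            gcongr; exact hS.orbCLM_norm M hM)
          have h1q : 0 < 1 - q := by linarith
          gcongr
      _ = M / (1 - q) * ‖f‖ := by ring
  refine ⟨S, ⟨hS, ⟨?_, ?_, fun f => (hcont f).continuousOn, ⟨M / (1 - q), 0,
    div_nonneg hM0 (by linarith), fun t _ => by simpa using hbd t⟩⟩, hduh⟩, fun t _ => hbd t⟩
  · ext f
    have := hduh f 0 le_rfl
    simpa [hS.zero] using this
  · intro s t hs ht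
    rw [add_comm s t]
    ext f
    have h1 : ∀ r ∈ Icc 0 s, S (t + r) f = S₀ r (S t f) +
        ∫ x in (0:ℝ)..r, S₀ (r - x) (B (S (t + x) f)) := by
      intro r hr
      rw [hduh f (t + r) (by linarith [hr.1]),
        hS.duh_shift (g := fun x => B (S x f)) (B.continuous.comp (hcont f)) ht hr.1,
        hduh f t ht, map_add, ← add_assoc, add_comm t r, hS.apply_add hr.1 ht]
    have h2 : ∀ r ∈ Icc 0 s, S r (S t f) = S₀ r (S t f) +
        ∫ x in (0:ℝ)..r, S₀ (r - x) (B (S x (S t f))) := fun r hr => hduh (S t f) r hr.1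
    have h3 := hS.duh_unique B (u := fun r => S (t + r) f) (v := fun r => S r (S t f)) (T := s)
      (a := fun r => S₀ r (S t f))
      ((hcont f).comp (by fun_prop : Continuous fun r : ℝ => t + r)).continuousOn
      (hcont (S t f)).continuousOn h1 h2 s ⟨hs, le_rfl⟩
    simpa [mul_apply_eq_comp] using h3

end Vale.Agent.P139.H42
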