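import Mathlib

/-!
# Fubini on a triangle
-/

open Set Filter Topology MeasureTheory intervalIntegral Function

namespace Vale.Agent.P139.H42

variable {E : Type*} [NormedAddCommGroup E] [NormedSpace ℝ E]

theorem integral_triangle {g : ℝ → ℝ → E} (hg : Continuous (uncurry g)) {t : ℝ} (ht : 0 ≤ t) :
    ∫ s in (0:ℝ)..t, ∫ r in (0:ℝ)..s, g s r = ∫ r in (0:ℝ)..t, ∫ s in r..t, g s r := by
  set D : Set (ℝ × ℝ) := {p | p.2 ≤ p.1} with hD
  have hDm : MeasurableSet D := measurableSet_le measurable_snd measurable_fst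
  set F : ℝ → ℝ → E := fun s r => D.indicator (uncurry g) (s, r) with hF
  have hInt : IntegrableOn (uncurry F) (uIoc 0 t ×ˢ uIoc 0 t) volume := by
    have h1 : uncurry F = D.indicator (uncurry g) := by ext ⟨s, r⟩; rfl
    rw [h1]
    refine IntegrableOn.indicator ?_ hDm
    have h2 : IntegrableOn (uncurry g) (Icc (0 : ℝ) t ×ˢ Icc (0 : ℝ) t) volume :=
      hg.continuousOn.integrableOn_compact (isCompact_Icc.prod isCompact_Icc)
    refine h2.mono_set ?_
    rw [uIoc_of_le ht]
    exact Set.prod_mono Ioc_subset_Icc_self Ioc_subset_Icc_self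
  have hsw := MeasureTheory.intervalIntegral_intervalIntegral_swap (F := F) (a := 0) (b := t)
    (c := 0) (d := t) hInt
  have hL : ∫ s in (0:ℝ)..t, ∫ r in (0:ℝ)..t, F s r = ∫ s in (0:ℝ)..t, ∫ r in (0:ℝ)..s, g s r := by
    apply intervalIntegral.integral_congr
    intro s hs
    rw [uIcc_of_le ht] at hs
    simp only
    rw [intervalIntegral.integral_of_le ht, intervalIntegral.integral_of_le hs.1]
    have : ∀ r, F s r = (Iic s).indicator (g s) r := by
      intro r
      simp only [hF, hD, indicator, mem_ofPred_eq, mem_Iic, uncurry]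
    simp only [this]
    rw [setIntegral_indicator measurableSet_Iic]
    congr 2
    ext r
    simp only [mem_inter_iff, mem_Ioc, mem_Iic]
    constructor
    · rintro ⟨⟨h1, _⟩, h3⟩; exact ⟨h1, h3⟩
    · rintro ⟨h1, h3⟩; exact ⟨⟨h1, h3.trans hs.2⟩, h3⟩
  have hR : ∫ r in (0:ℝ)..t, ∫ s in (0:ℝ)..t, F s r = ∫ r in (0:ℝ)..t, ∫ s in r..t, g s r := by
    apply intervalIntegral.integral_congr_ae
    refine Filter.Eventually.of_forall fun r hr => ?_
    rw [uIoc_of_le ht] at hr
    rw [intervalIntegral.integral_of_le ht, intervalIntegral.integral_of_le hr.2]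
    have : ∀ s, F s r = (Ici r).indicator (fun s => g s r) s := by
      intro s
      simp only [hF, hD, indicator, mem_ofPred_eq, mem_Ici, uncurry]
    simp only [this]
    rw [setIntegral_indicator measurableSet_Ici]
    have h3 : Ioc 0 t ∩ Ici r = Icc r t := by
      ext s
      simp only [mem_inter_iff, mem_Ioc, mem_Ici, mem_Icc]
      constructor
      · rintro ⟨⟨_, h2⟩, h3⟩; exact ⟨h3, h2⟩
      · rintro ⟨h1, h3⟩; exact ⟨⟨hr.1.trans_le h1, h3⟩, h1⟩
    rw [h3, integral_Icc_eq_integral_Ioc]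
  rw [← hL, ← hR]
  exact hsw

end Vale.Agent.P139.H42
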