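import Vale.Agent.P139.H42.SG2
import Vale.Agent.P139.H42.Tri

/-!
# Bounded perturbations: rates, forced equations, two-step perturbations
-/

open Set Filter Topology MeasureTheory intervalIntegral Function
open scoped BoundedContinuousFunction

namespace Vale.Agent.P139.H42

variable {E : Type*} [NormedAddCommGroup E] [NormedSpace ℂ E] [CompleteSpace E]

/-- Perturbation theorem with a rate. -/
theorem pert_rate {S₀ : ℝ → E →L[ℂ] E} (hS : IsSG S₀) (B : E →L[ℂ] E) {M q δ : ℝ}
    (hM : ∀ t, 0 ≤ t → ‖S₀ t‖ ≤ M * Real.exp (-(δ * t))) (hq0 : 0 ≤ q) (hq1 : q < 1)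
    (hq : ∀ v : ℝ →ᵇ E, ∀ t : ℝ, 0 ≤ t →
      ‖∫ s in (0:ℝ)..t, (Real.exp (δ * (t - s)) : ℂ) • S₀ (t - s) (B (v s))‖ ≤ q * ‖v‖) :
    ∃ S : ℝ → E →L[ℂ] E, IsPert S₀ B S ∧
      ∀ t, 0 ≤ t → ‖S t‖ ≤ M / (1 - q) * Real.exp (-(δ * t)) := by
  obtain ⟨S', hP, hb⟩ := pert_aux (hS.rescale δ) B (M := M) (q := q) (fun t ht => by
    rw [norm_smul, Complex.norm_real, Real.norm_eq_abs, abs_of_pos (Real.exp_pos _)]
    calc Real.exp (δ * t) * ‖S₀ t‖ ≤ Real.exp (δ * t) * (M * Real.exp (-(δ * t))) := by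
          gcongr; exact hM t ht
      _ = M := by
          rw [mul_left_comm, ← Real.exp_add]; simp) hq0 hq1 hq
  refine ⟨fun t => (Real.exp (-δ * t) : ℂ) • S' t, ⟨hS, hP.sg.rescale (-δ), ?_⟩, ?_⟩
  · intro f t ht
    have h1 := hP.duh f t ht
    simp only [_root_.smul_apply] at h1 ⊢
    rw [h1, smul_add, smul_smul, ← Complex.ofReal_mul, ← Real.exp_add,
      ← intervalIntegral.integral_smul]
    congr 1
    · simp
    · apply intervalIntegral.integral_congr
      intro s _
      simp only [map_smul, smul_smul]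
      congr 1
      rw [← Complex.ofReal_mul, ← Real.exp_add]
      congr 2
      ring
  · intro t ht
    simp only
    rw [norm_smul, Complex.norm_real, Real.norm_eq_abs, abs_of_pos (Real.exp_pos _), mul_comm]
    have := hb t ht
    rw [show -δ * t = -(δ * t) by ring]
    gcongr

/-- Every bounded operator gives a perturbed semigroup. -/
theorem pert_exists {S₀ : ℝ → E →L[ℂ] E} (hS : IsSG S₀) (B : E →L[ℂ] E) :
    ∃ S : ℝ → E →L[ℂ] E, IsPert S₀ B S := by
  obtain ⟨M, w, hM, hb⟩ := hS.bdd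
  set K : ℝ := M * ‖B‖ with hK
  have hK0 : 0 ≤ K := by positivity
  set l : ℝ := 2 * K + 1 with hl
  have hl0 : 0 < l := by positivity
  set δ : ℝ := -(w + l) with hδ
  have hbδ : ∀ t, 0 ≤ t → ‖S₀ t‖ ≤ M * Real.exp (-(δ * t)) := by
    intro t ht
    refine (hb t ht).trans ?_
    have : w * t ≤ -(δ * t) := by
      rw [hδ]
      nlinarith
    gcongr
  have hq : ∀ v : ℝ →ᵇ E, ∀ t : ℝ, 0 ≤ t →
      ‖∫ s in (0:ℝ)..t, (Real.exp (δ * (t - s)) : ℂ) • S₀ (t - s) (B (v s))‖ ≤ 1/2 * ‖v‖ := by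
    intro v t ht
    have hbd : ∀ s ∈ Ioc (0:ℝ) t, ‖(Real.exp (δ * (t - s)) : ℂ) • S₀ (t - s) (B (v s))‖ ≤
        K * ‖v‖ * Real.exp (-(l * t)) * Real.exp (l * s) := by
      intro s hs
      rw [norm_smul, Complex.norm_real, Real.norm_eq_abs, abs_of_pos (Real.exp_pos _)]
      calc Real.exp (δ * (t - s)) * ‖S₀ (t - s) (B (v s))‖
          ≤ Real.exp (δ * (t - s)) * ((M * Real.exp (w * (t - s))) * (‖B‖ * ‖v‖)) := by
            gcongr
            refine (ContinuousLinearMap.le_opNorm _ _).trans ?_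
            gcongr
            · exact hb _ (by linarith [hs.2])
            · refine (ContinuousLinearMap.le_opNorm _ _).trans ?_
              gcongr
              exact v.norm_coe_le_norm s
        _ = K * ‖v‖ * (Real.exp (δ * (t - s)) * Real.exp (w * (t - s))) := by rw [hK]; ring
        _ = K * ‖v‖ * Real.exp (-(l * t)) * Real.exp (l * s) := by
            rw [mul_assoc (K * ‖v‖), ← Real.exp_add, ← Real.exp_add]
            congr 2
            rw [hδ]; ring
    refine (intervalIntegral.norm_integral_le_of_norm_le ht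
      (Filter.Eventually.of_forall hbd) (Continuous.intervalIntegrable (by fun_prop) _ _)).trans ?_
    rw [intervalIntegral.integral_const_mul, expInt _ hl0.ne' t]
    have hk : K / l ≤ 1 / 2 := by
      rw [div_le_div_iff₀ hl0 (by norm_num)]
      linarith
    calc K * ‖v‖ * Real.exp (-(l * t)) * ((Real.exp (l * t) - 1) / l)
        ≤ K * ‖v‖ * Real.exp (-(l * t)) * (Real.exp (l * t) / l) := by
          gcongr
          linarith
      _ = (K / l) * ‖v‖ * (Real.exp (-(l * t)) * Real.exp (l * t)) := by ring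
      _ = (K / l) * ‖v‖ := by rw [← Real.exp_add]; simp
      _ ≤ 1 / 2 * ‖v‖ := by gcongr
  obtain ⟨S, h, -⟩ := pert_rate hS B hbδ (by norm_num) (by norm_num) hq
  exact ⟨S, h⟩

variable {S₀ S S' : ℝ → E →L[ℂ] E} {B B' : E →L[ℂ] E}

omit [CompleteSpace E] in
/-- Uniqueness of the perturbed semigroup. -/
theorem IsPert.unique (h : IsPert S₀ B S) (h' : IsPert S₀ B S') {t : ℝ} (ht : 0 ≤ t) :
    S t = S' t := by
  ext f
  exact h.sg₀.duh_unique B (T := t) (a := fun r => S₀ r f)
    ((h.sg.cont f).mono Icc_subset_Ici_self) ((h'.sg.cont f).mono Icc_subset_Ici_self)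
    (fun r hr => h.duh f r hr.1) (fun r hr => h'.duh f r hr.1) t ⟨ht, le_rfl⟩

/-- The forced equation with zero datum. -/
theorem IsPert.forced (h : IsPert S₀ B S) {F : ℝ → E} (hF : Continuous F) {t : ℝ} (ht : 0 ≤ t) :
    ∫ s in (0:ℝ)..t, S (t - s) (F s) = (∫ s in (0:ℝ)..t, S₀ (t - s) (F s)) +
      ∫ s in (0:ℝ)..t, S₀ (t - s) (B (∫ r in (0:ℝ)..s, S (s - r) (F r))) := by
  set g : ℝ → ℝ → E := fun x s => S₀ (max (t - x) 0) (B (S (max (x - s) 0) (F s))) with hg
  have hgc : Continuous (uncurry g) := by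
    have : uncurry g = (fun p : ℝ × E => S₀ (max p.1 0) p.2) ∘
        fun q : ℝ × ℝ => (t - q.1, B ((fun p : ℝ × E => S (max p.1 0) p.2) (q.1 - q.2, F q.2))) := by
      ext ⟨x, s⟩; rfl
    rw [this]
    refine h.sg₀.cont2.comp ((continuous_const.sub continuous_fst).prodMk (B.continuous.comp
      (h.sg.cont2.comp ((continuous_fst.sub continuous_snd).prodMk (hF.comp continuous_snd)))))
  have h1 : ∀ s ∈ Icc 0 t, S (t - s) (F s) = S₀ (t - s) (F s) + ∫ x in s..t, g x s := by
    intro s hs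
    rw [h.duh (F s) (t - s) (by linarith [hs.2])]
    congr 1
    have h3 := intervalIntegral.integral_comp_add_left (a := 0) (b := t - s) (fun x => g x s) s
    rw [add_zero, add_sub_cancel] at h3
    rw [← h3]
    apply intervalIntegral.integral_congr
    intro x hx
    rw [uIcc_of_le (by linarith [hs.2])] at hx
    simp only [hg]
    rw [max_eq_left (by linarith [hx.2]), max_eq_left (by linarith [hx.1])]
    congr 2
    · ring
    · congr 2; ring
  have h2 : ∫ s in (0:ℝ)..t, S (t - s) (F s) =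
      (∫ s in (0:ℝ)..t, S₀ (t - s) (F s)) + ∫ s in (0:ℝ)..t, ∫ x in s..t, g x s := by
    rw [← intervalIntegral.integral_add]
    · apply intervalIntegral.integral_congr
      intro s hs
      rw [uIcc_of_le ht] at hs
      exact h1 s hs
    · exact h.sg₀.intble hF ht le_rfl
    · have h5 : Continuous fun s => ∫ x in s..t, g x s := by
        have h6 : Continuous fun s => ∫ x in t..s, g x s := by
          have hgc' : Continuous (uncurry fun s x => g x s) := by
            have : (uncurry fun s x => g x s) = uncurry g ∘ Prod.swap := by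
              ext ⟨s, x⟩; rfl
            rw [this]
            exact hgc.comp continuous_swap
          exact intervalIntegral.continuous_parametric_intervalIntegral_of_continuous hgc'
            continuous_id
        have : (fun s => ∫ x in s..t, g x s) = fun s => -∫ x in t..s, g x s := by
          ext s; rw [intervalIntegral.integral_symm]
        rw [this]
        exact h6.neg
      exact h5.intervalIntegrable _ _
  rw [h2, ← integral_triangle hgc ht]
  congr 1
  apply intervalIntegral.integral_congr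
  intro x hx
  rw [uIcc_of_le ht] at hx
  simp only [hg]
  rw [max_eq_left (by linarith [hx.2] : (0:ℝ) ≤ t - x)]
  have h7 : ∫ s in (0:ℝ)..x, S₀ (t - x) (B (S (max (x - s) 0) (F s))) =
      ∫ s in (0:ℝ)..x, (S₀ (t - x) ∘L B) (S (x - s) (F s)) := by
    apply intervalIntegral.integral_congr
    intro s hs
    rw [uIcc_of_le hx.1] at hs
    simp only [ContinuousLinearMap.comp_apply]
    rw [max_eq_left (by linarith [hs.2])]
  rw [h7, ContinuousLinearMap.intervalIntegral_comp_comm _ (h.sg.intble hF hx.1 le_rfl)]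
  rfl

omit [CompleteSpace E] in
theorem IsPert.contOrbit (h : IsPert S₀ B S) {F : ℝ → E} (hF : Continuous F) :
    ContinuousOn (fun t => ∫ s in (0:ℝ)..t, S (t - s) (F s)) (Ici 0) := by
  have h1 := h.sg.cont_duhMax hF
  refine h1.continuousOn.congr fun t ht => ?_
  simp only
  rw [max_eq_left (mem_Ici.1 ht), IsSG.duh_eq (mem_Ici.1 ht)]

/-- Full Duhamel formula: a continuous solution of the mild equation for `S₀` with the term
`B u + F` is given by the perturbed semigroup. -/
theorem IsPert.mild (h : IsPert S₀ B S) {F u : ℝ → E} (hF : Continuous F) {T : ℝ} {f : E}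
    (hu : ContinuousOn u (Icc 0 T))
    (hm : ∀ t ∈ Icc 0 T, u t = S₀ t f + (∫ s in (0:ℝ)..t, S₀ (t - s) (F s)) +
      ∫ s in (0:ℝ)..t, S₀ (t - s) (B (u s))) :
    ∀ t ∈ Icc 0 T, u t = S t f + ∫ s in (0:ℝ)..t, S (t - s) (F s) := by
  refine h.sg₀.duh_unique B hu ?_ hm ?_
  · refine ContinuousOn.add ((h.sg.cont f).mono Icc_subset_Ici_self) ?_
    exact (h.contOrbit hF).mono Icc_subset_Ici_self
  · intro t ht
    rw [h.duh f t ht.1, h.forced hF ht.1]
    have : ∫ s in (0:ℝ)..t, S₀ (t - s) (B (S s f + ∫ r in (0:ℝ)..s, S (s - r) (F r))) =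
        (∫ s in (0:ℝ)..t, S₀ (t - s) (B (S s f))) +
        ∫ s in (0:ℝ)..t, S₀ (t - s) (B (∫ r in (0:ℝ)..s, S (s - r) (F r))) := by
      simp only [map_add]
      have h8 : ∀ w : ℝ → E, ContinuousOn w (Ici 0) →
          IntervalIntegrable (fun s => S₀ (t - s) (B (w s))) volume 0 t := by
        intro w hw
        have hc : Continuous fun s => w (max s 0) := hw.comp_continuous (by fun_prop) (by simp)
        refine (h.sg₀.intble (B.continuous.comp hc) ht.1 le_rfl).congr ?_
        intro s hs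
        rw [uIoc_of_le ht.1] at hs
        simp only [Function.comp_apply, max_eq_left hs.1.le]
      exact intervalIntegral.integral_add (h8 _ (h.sg.cont f)) (h8 _ (h.contOrbit hF))
    rw [this]
    abel

/-- Conversely. -/
theorem IsPert.mild' (h : IsPert S₀ B S) {F : ℝ → E} (hF : Continuous F) (f : E) {t : ℝ}
    (ht : 0 ≤ t) :
    S t f + ∫ s in (0:ℝ)..t, S (t - s) (F s) =
      S₀ t f + (∫ s in (0:ℝ)..t, S₀ (t - s) (F s)) +
      ∫ s in (0:ℝ)..t, S₀ (t - s) (B (S s f + ∫ r in (0:ℝ)..s, S (s - r) (F r))) := by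
  rw [h.duh f t ht, h.forced hF ht]
  have : ∫ s in (0:ℝ)..t, S₀ (t - s) (B (S s f + ∫ r in (0:ℝ)..s, S (s - r) (F r))) =
      (∫ s in (0:ℝ)..t, S₀ (t - s) (B (S s f))) +
      ∫ s in (0:ℝ)..t, S₀ (t - s) (B (∫ r in (0:ℝ)..s, S (s - r) (F r))) := by
    simp only [map_add]
    have h8 : ∀ w : ℝ → E, ContinuousOn w (Ici 0) →
        IntervalIntegrable (fun s => S₀ (t - s) (B (w s))) volume 0 t := by
      intro w hw
      have hc : Continuous fun s => w (max s 0) := hw.comp_continuous (by fun_prop) (by simp)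
      refine (h.sg₀.intble (B.continuous.comp hc) ht le_rfl).congr ?_
      intro s hs
      rw [uIoc_of_le ht] at hs
      simp only [Function.comp_apply, max_eq_left hs.1.le]
    exact intervalIntegral.integral_add (h8 _ (h.sg.cont f)) (h8 _ (h.contOrbit hF))
  rw [this]
  abel

/-- Two-step perturbation. -/
theorem IsPert.twoStep {B₁ B₂ : E →L[ℂ] E} {S₁ S₂ : ℝ → E →L[ℂ] E} (h₁ : IsPert S₀ B₁ S₁)
    (h₂ : IsPert S₀ (B₁ + B₂) S₂) : IsPert S₁ B₂ S₂ := by
  refine ⟨h₁.sg, h₂.sg, fun f t ht => ?_⟩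
  have hc : Continuous fun s => B₂ (S₂ (max s 0) f) := B₂.continuous.comp (h₂.sg.contMax f)
  have key := h₁.mild (F := fun s => B₂ (S₂ (max s 0) f)) (u := fun s => S₂ s f) (T := t) (f := f)
    hc ((h₂.sg.cont f).mono Icc_subset_Ici_self) ?_ t ⟨ht, le_rfl⟩
  · rw [key]
    congr 1
    apply intervalIntegral.integral_congr
    intro s hs
    rw [uIcc_of_le ht] at hs
    simp only [max_eq_left hs.1]
  · intro r hr
    rw [h₂.duh f r hr.1, add_assoc, ← intervalIntegral.integral_add]
    · congr 1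
      apply intervalIntegral.integral_congr
      intro s hs
      rw [uIcc_of_le hr.1] at hs
      simp only [max_eq_left hs.1, _root_.add_apply, map_add]
      abel
    · exact h₁.sg₀.intble hc hr.1 le_rfl
    · have hc' : Continuous fun s => B₁ (S₂ (max s 0) f) := B₁.continuous.comp (h₂.sg.contMax f)
      refine (h₁.sg₀.intble hc' hr.1 le_rfl).congr ?_
      intro s hs
      rw [uIoc_of_le hr.1] at hs
      simp only [max_eq_left hs.1.le]

omit [CompleteSpace E] in
/-- The trivial perturbation. -/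
theorem IsSG.pert_zero (h : IsSG S) : IsPert S 0 S := ⟨h, h, fun f t _ => by simp⟩

/-- The inverse perturbation. -/
theorem IsPert.symm (h : IsPert S₀ B S) : IsPert S (-B) S₀ :=
  h.twoStep (B₂ := -B) (by rw [add_neg_cancel]; exact h.sg₀.pert_zero)

/-- The second Duhamel formula. -/
theorem IsPert.duh' (h : IsPert S₀ B S) (f : E) {t : ℝ} (ht : 0 ≤ t) :
    S t f = S₀ t f + ∫ s in (0:ℝ)..t, S (t - s) (B (S₀ s f)) := by
  have := h.symm.duh f t ht
  rw [this]
  simp only [_root_.neg_apply, map_neg, intervalIntegral.integral_neg]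
  abel

/-- Perturbation in two steps exists. -/
theorem IsPert.trans {B₁ B₂ : E →L[ℂ] E} {S₁ S₂ : ℝ → E →L[ℂ] E} (h₁ : IsPert S₀ B₁ S₁)
    (h₂ : IsPert S₁ B₂ S₂) : IsPert S₀ (B₁ + B₂) S₂ := by
  obtain ⟨S₃, h₃⟩ := pert_exists h₁.sg₀ (B₁ + B₂)
  have h₄ := h₁.twoStep h₃
  refine ⟨h₁.sg₀, h₂.sg, fun f t ht => ?_⟩
  rw [h₂.unique h₄ ht, h₃.duh f t ht]
  congr 1
  apply intervalIntegral.integral_congr
  intro s hs
  rw [uIcc_of_le ht] at hs
  simp only
  rw [h₂.unique h₄ hs.1]

end Vale.Agent.P139.H42
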