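import Vale.Agent.P139.H42.Comm

/-!
# Decay of the free flow after a multiplication with high frequencies
-/

open Set Filter Topology MeasureTheory Function
open scoped ComplexConjugate

namespace Vale.Agent.P139.H42

open Vale.Agent.P139.BU

variable {d s : ℕ} {κ : ℝ}

/-- `M g = ∫ g(η) τ_η dη` with `τ_η = φ(· - η)`, and `g` is supported in `|η| > N`. -/
theorem flow_mul_high (c : ℂ) (σ : ℝ) {C : ℝ} (hC0 : 0 ≤ C)
    (hC : ∀ x y : ℝ, 0 ≤ x → 0 ≤ y → (x + y) ^ s ≤ 2 * x ^ s + C * y ^ s)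
    {t : ℝ} (ht : 0 ≤ t) (φ : X1 d s) (τ : E d → X1 d s)
    (hτ : ∀ η, (τ η : E d → ℂ) =ᵐ[volume] fun ξ => φ (ξ - η))
    {N : ℝ} (hN : 0 < N) (f g : X1 d s)
    (hg : (g : E d → ℂ) =ᵐ[volume] fun ξ => if ‖ξ‖ ≤ N then 0 else f ξ)
    (hint : Integrable (fun η => g η • τ η)) :
    ‖flowK d s zero_le_one c σ t (∫ η, g η • τ η)‖ ≤ Real.exp (c.re * t) *
      ((N ^ s)⁻¹ * m0 φ + Real.exp (-(s * t / 2)) * (2 * m0 φ + C * (N ^ s)⁻¹ * ms φ)) * ‖f‖ := by
  set e : ℝ := Real.exp (-(s * t / 2)) with he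
  have he0 : 0 < e := Real.exp_pos _
  have hNs : 0 < N ^ s := by positivity
  have h1 : flowK d s zero_le_one c σ t (∫ η, g η • τ η) =
      ∫ η, flowK d s zero_le_one c σ t (g η • τ η) :=
    (ContinuousLinearMap.integral_comp_comm _ hint).symm
  rw [h1]
  have hb : ∀ᵐ η ∂(volume : Measure (E d)), ‖flowK d s zero_le_one c σ t (g η • τ η)‖ ≤
      Real.exp (c.re * t) * ((N ^ s)⁻¹ * m0 φ + e * (2 * m0 φ + C * (N ^ s)⁻¹ * ms φ)) *
        (wt 1 s η * ‖f η‖) := by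
    filter_upwards [hg] with η hη
    rw [map_smul, norm_smul, hη]
    by_cases h : ‖η‖ ≤ N
    · rw [if_pos h, norm_zero, zero_mul]
      have := wt_pos (zero_le_one (α := ℝ)) s η
      have h0 := m0_nonneg φ
      have h0' := ms_nonneg φ
      positivity
    · rw [if_neg h]
      push Not at h
      have h2 := flowK_translate (κ := 1) one_pos c σ hC ht φ (τ η) η (hτ η)
      have h3 : 1 ≤ (N ^ s)⁻¹ * ‖η‖ ^ s := by
        rw [← div_eq_inv_mul, one_le_div hNs]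
        exact pow_le_pow_left₀ hN.le h.le s
      have h4 : ‖η‖ ^ s ≤ wt 1 s η := by unfold wt; linarith
      have h0 := m0_nonneg φ
      have h0' := ms_nonneg φ
      calc ‖f η‖ * ‖flowK d s zero_le_one c σ t (τ η)‖
          ≤ ‖f η‖ * (Real.exp (c.re * t) * ((1 + 2 * 1 * e * ‖η‖ ^ s) * m0 φ +
              1 * e * C * ms φ)) := by gcongr
        _ = Real.exp (c.re * t) * (1 * m0 φ + e * (2 * ‖η‖ ^ s * m0 φ +
              C * 1 * ms φ)) * ‖f η‖ := by ring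
        _ ≤ Real.exp (c.re * t) * (((N ^ s)⁻¹ * ‖η‖ ^ s) * m0 φ + e * (2 * ‖η‖ ^ s * m0 φ +
              C * ((N ^ s)⁻¹ * ‖η‖ ^ s) * ms φ)) * ‖f η‖ := by gcongr
        _ = Real.exp (c.re * t) * ((N ^ s)⁻¹ * m0 φ + e * (2 * m0 φ +
              C * (N ^ s)⁻¹ * ms φ)) * (‖η‖ ^ s * ‖f η‖) := by ring
        _ ≤ _ := by gcongr
  refine (norm_integral_le_of_norm_le ((XK.integrable_wt zero_le_one f).const_mul _) hb).trans ?_
  rw [integral_const_mul, ← XK.norm_eq zero_le_one]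

end Vale.Agent.P139.H42
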