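import Mathlib

/-!
# Weighted composition operators on L1 spaces
-/

open Set Filter Topology MeasureTheory Function
open scoped ENNReal NNReal

namespace Vale.Agent.P139.H42

variable {V : Type*} [MeasurableSpace V] {μ : Measure V}

/-! ### Weighted composition operators -/

section wcomp

theorem eLpNorm_one_mu (f : V → ℂ) : eLpNorm f 1 μ = ∫⁻ ξ, ‖f ξ‖ₑ ∂μ := by
  rw [eLpNorm_one_eq_lintegral_enorm]

/-- The condition under which `f ↦ k · f ∘ A` is bounded with norm at most `C`. -/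
def WBound (μ : Measure V) (k : V → ℂ) (A : V → V) (C : ℝ) : Prop :=
  ∀ f : V → ℝ≥0∞, Measurable f →
    ∫⁻ ξ, ‖k ξ‖ₑ * f (A ξ) ∂μ ≤ ENNReal.ofReal C * ∫⁻ ξ, f ξ ∂μ

variable {k : V → ℂ} {A : V → V} {C : ℝ}

theorem WBound.congr (hk : Measurable k) (hA : Measurable A) (hb : WBound μ k A C) {f g : V → ℂ}
    (h : f =ᵐ[μ] g) : (fun ξ => k ξ * f (A ξ)) =ᵐ[μ] fun ξ => k ξ * g (A ξ) := by
  obtain ⟨N, hN1, hN2, hN3⟩ := exists_measurable_superset_of_null (ae_iff.1 h)
  have h1 := hb (N.indicator 1) (measurable_one.indicator hN2)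
  rw [lintegral_indicator_one hN2, hN3, mul_zero, nonpos_iff_eq_zero,
    lintegral_eq_zero_iff] at h1
  · filter_upwards [h1] with ξ hξ
    simp only [Pi.zero_apply, mul_eq_zero] at hξ
    rcases hξ with hξ | hξ
    · rw [enorm_eq_zero] at hξ
      simp [hξ]
    · have : A ξ ∉ N := by
        intro hmem
        simp [hmem] at hξ
      have h2 : f (A ξ) = g (A ξ) := by
        by_contra hne
        exact this (hN1 hne)
      rw [h2]
  · exact hk.enorm.mul ((measurable_one.indicator hN2).comp hA)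

theorem WBound.memLp (hk : Measurable k) (hA : Measurable A) (hb : WBound μ k A C) (f : Lp ℂ 1 μ) :
    MemLp (fun ξ => k ξ * f (A ξ)) 1 μ := by
  refine ⟨(hk.mul ((Lp.stronglyMeasurable f).measurable.comp hA)).aestronglyMeasurable, ?_⟩
  rw [eLpNorm_one_mu]
  have h1 : ∫⁻ ξ, ‖k ξ * f (A ξ)‖ₑ ∂μ = ∫⁻ ξ, ‖k ξ‖ₑ * ‖f (A ξ)‖ₑ ∂μ := by
    congr 1; ext ξ; rw [enorm_mul]
  rw [h1]
  refine (hb (fun ξ => ‖f ξ‖ₑ) (Lp.stronglyMeasurable f).measurable.enorm).trans_lt ?_
  refine ENNReal.mul_lt_top ENNReal.ofReal_lt_top ?_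
  have := Lp.eLpNorm_lt_top f
  rwa [eLpNorm_one_mu] at this

/-- The operator `f ↦ k · f ∘ A`. -/
noncomputable def wcomp (hk : Measurable k) (hA : Measurable A) (hC : 0 ≤ C)
    (hb : WBound μ k A C) : Lp ℂ 1 μ →L[ℂ] Lp ℂ 1 μ :=
  LinearMap.mkContinuous
    { toFun := fun f => (hb.memLp hk hA f).toLp _
      map_add' := fun f g => by
        apply Lp.ext
        have h1 := (hb.memLp hk hA (f + g)).coeFn_toLp
        have h2 := (hb.memLp hk hA f).coeFn_toLp
        have h3 := (hb.memLp hk hA g).coeFn_toLp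
        have h4 := hb.congr hk hA (Lp.coeFn_add f g)
        filter_upwards [h1, h2, h3, h4, Lp.coeFn_add ((hb.memLp hk hA f).toLp _)
          ((hb.memLp hk hA g).toLp _)] with ξ e1 e2 e3 e4 e5
        rw [e5, Pi.add_apply, e1, e2, e3, e4, Pi.add_apply, mul_add]
      map_smul' := fun c f => by
        apply Lp.ext
        have h1 := (hb.memLp hk hA (c • f)).coeFn_toLp
        have h2 := (hb.memLp hk hA f).coeFn_toLp
        have h4 := hb.congr hk hA (Lp.coeFn_smul c f)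
        filter_upwards [h1, h2, h4, Lp.coeFn_smul c ((hb.memLp hk hA f).toLp _)]
          with ξ e1 e2 e4 e5
        simp only [RingHom.id_apply]
        rw [e5, Pi.smul_apply, e1, e2, e4, Pi.smul_apply]
        simp only [smul_eq_mul]
        ring } C
    (fun f => by
      simp only [LinearMap.coe_mk, AddHom.coe_mk]
      rw [Lp.norm_toLp, Lp.norm_def, ← ENNReal.toReal_ofReal hC, ← ENNReal.toReal_mul]
      apply ENNReal.toReal_mono
      · exact ENNReal.mul_ne_top ENNReal.ofReal_ne_top (Lp.eLpNorm_ne_top f)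
      · rw [eLpNorm_one_mu, eLpNorm_one_mu]
        have h1 : ∫⁻ ξ, ‖k ξ * f (A ξ)‖ₑ ∂μ = ∫⁻ ξ, ‖k ξ‖ₑ * ‖f (A ξ)‖ₑ ∂μ := by
          congr 1; ext ξ; rw [enorm_mul]
        rw [h1]
        exact hb (fun ξ => ‖f ξ‖ₑ) (Lp.stronglyMeasurable f).measurable.enorm)

theorem wcomp_coe (hk : Measurable k) (hA : Measurable A) (hC : 0 ≤ C)
    (hb : WBound μ k A C) (f : Lp ℂ 1 μ) :
    wcomp hk hA hC hb f =ᵐ[μ] fun ξ => k ξ * f (A ξ) :=
  (hb.memLp hk hA f).coeFn_toLp

theorem wcomp_toLp (hk : Measurable k) (hA : Measurable A) (hC : 0 ≤ C)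
    (hb : WBound μ k A C) {g : V → ℂ} (hg : MemLp g 1 μ) :
    wcomp hk hA hC hb (hg.toLp g) =ᵐ[μ] fun ξ => k ξ * g (A ξ) :=
  (wcomp_coe hk hA hC hb _).trans (hb.congr hk hA hg.coeFn_toLp)

theorem wcomp_norm (hk : Measurable k) (hA : Measurable A) (hC : 0 ≤ C)
    (hb : WBound μ k A C) : ‖wcomp hk hA hC hb‖ ≤ C := LinearMap.mkContinuous_norm_le _ hC _

end wcomp

end Vale.Agent.P139.H42
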