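import Vale.Agent.P139.H42.WX1

/-!
# Strong continuity of weighted composition operators; dilations and translations
-/

open Set Filter Topology MeasureTheory Function
open scoped ENNReal NNReal

namespace Vale.Agent.P139.H42

variable {V : Type*} [NormedAddCommGroup V] [NormedSpace ℝ V] [FiniteDimensional ℝ V]
  [MeasurableSpace V] [BorelSpace V] {μ : Measure V}

theorem norm_X1 (f : Lp ℂ 1 μ) : ‖f‖ = ∫ ξ, ‖f ξ‖ ∂μ := L1.norm_eq_integral_norm f

theorem norm_sub_X1 (f g : Lp ℂ 1 μ) : ‖f - g‖ = ∫ ξ, ‖f ξ - g ξ‖ ∂μ := by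
  rw [norm_X1]
  refine integral_congr_ae ?_
  filter_upwards [Lp.coeFn_sub f g] with ξ h
  rw [h, Pi.sub_apply]

theorem dense_cc [IsLocallyFiniteMeasure μ] (f : Lp ℂ 1 μ) {ε : ℝ} (hε : 0 < ε) : ∃ g : V → ℂ, Continuous g ∧
    HasCompactSupport g ∧ ∃ hg : MemLp g 1 μ, ‖f - hg.toLp g‖ ≤ ε := by
  obtain ⟨g, h1, h2, h3, h4⟩ := (Lp.memLp f).exists_hasCompactSupport_eLpNorm_sub_le
    (by simp) (ε := ENNReal.ofReal ε) (by simpa using hε)
  refine ⟨g, h3, h1, h4, ?_⟩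
  have h5 : f - h4.toLp g = ((Lp.memLp f).sub h4).toLp (⇑f - g) := by
    apply Lp.ext
    filter_upwards [Lp.coeFn_sub f (h4.toLp g), h4.coeFn_toLp,
      ((Lp.memLp f).sub h4).coeFn_toLp] with ξ e1 e2 e3
    rw [e1, e3, Pi.sub_apply, Pi.sub_apply, e2]
  rw [h5, Lp.norm_toLp]
  exact ENNReal.toReal_le_of_le_ofReal hε.le h2

/-- Strong continuity follows from the dense class. -/
theorem strong_cont [IsLocallyFiniteMeasure μ] {P : Type*} [TopologicalSpace P] {T : P → Lp ℂ 1 μ →L[ℂ] Lp ℂ 1 μ} {p₀ : P}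
    {C : ℝ} (hb : ∀ᶠ p in 𝓝 p₀, ‖T p‖ ≤ C)
    (hc : ∀ g : V → ℂ, Continuous g → HasCompactSupport g → ∀ hg : MemLp g 1 μ,
      ContinuousAt (fun p => T p (hg.toLp g)) p₀) (f : Lp ℂ 1 μ) :
    ContinuousAt (fun p => T p f) p₀ := by
  have hC : 0 ≤ C := (norm_nonneg _).trans hb.self_of_nhds
  rw [Metric.continuousAt_iff']
  intro ε hε
  have hδ : 0 < ε / (3 * (C + 1)) := by positivity
  obtain ⟨g, h1, h2, hg, h3⟩ := dense_cc f hδ
  have h4 := (Metric.continuousAt_iff'.1 (hc g h1 h2 hg)) (ε / 3) (by positivity)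
  have h5 : C * (ε / (3 * (C + 1))) < ε / 3 := by
    rw [mul_div_assoc', div_lt_div_iff₀ (by positivity) (by positivity)]
    nlinarith
  filter_upwards [hb, h4] with p hp1 hp2
  rw [dist_eq_norm] at hp2 ⊢
  have e : T p f - T p₀ f = T p (f - hg.toLp g) + (T p (hg.toLp g) - T p₀ (hg.toLp g)) -
      T p₀ (f - hg.toLp g) := by
    simp only [map_sub]; abel
  rw [e]
  have e1 : ‖T p (f - hg.toLp g)‖ ≤ C * (ε / (3 * (C + 1))) :=
    ((T p).le_opNorm _).trans (by gcongr)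
  have e2 : ‖T p₀ (f - hg.toLp g)‖ ≤ C * (ε / (3 * (C + 1))) :=
    ((T p₀).le_opNorm _).trans (by gcongr; exact hb.self_of_nhds)
  calc _ ≤ ‖T p (f - hg.toLp g)‖ + ‖T p (hg.toLp g) - T p₀ (hg.toLp g)‖ +
        ‖T p₀ (f - hg.toLp g)‖ := (norm_sub_le _ _).trans (by gcongr; exact norm_add_le _ _)
    _ < ε / 3 + ε / 3 + ε / 3 := by linarith
    _ = ε := by ring

/-- Continuity of a family of weighted composition operators on the dense class. -/
theorem wcomp_cont [IsLocallyFiniteMeasure μ] {P : Type*} [TopologicalSpace P] [FirstCountableTopology P]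
    {k : P → V → ℂ} {A : P → V → V} {C : P → ℝ} {p₀ : P}
    (hk : ∀ p, Measurable (k p)) (hA : ∀ p, Measurable (A p)) (hC : ∀ p, 0 ≤ C p)
    (hb : ∀ p, WBound μ (k p) (A p) (C p))
    (hk1 : ∀ ξ, ContinuousAt (fun p => k p ξ) p₀) (hA1 : ∀ ξ, ContinuousAt (fun p => A p ξ) p₀)
    (hkb : ∃ M : ℝ, ∀ᶠ p in 𝓝 p₀, ∀ ξ, ‖k p ξ‖ ≤ M)
    (hAp : ∀ R : ℝ, ∃ R' : ℝ, ∀ᶠ p in 𝓝 p₀, ∀ ξ, ‖A p ξ‖ ≤ R → ‖ξ‖ ≤ R')
    (g : V → ℂ) (hg1 : Continuous g) (hg2 : HasCompactSupport g) (hg : MemLp g 1 μ) :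
    ContinuousAt (fun p => wcomp (hk p) (hA p) (hC p) (hb p) (hg.toLp g)) p₀ := by
  rw [ContinuousAt, tendsto_iff_norm_sub_tendsto_zero]
  obtain ⟨M, hM⟩ := hkb
  obtain ⟨R, hR⟩ : ∃ R : ℝ, ∀ ξ, g ξ ≠ 0 → ‖ξ‖ ≤ R := by
    obtain ⟨R, hR⟩ := (hg2.isCompact.isBounded).subset_closedBall (0 : V)
    refine ⟨R, fun ξ hξ => ?_⟩
    have := hR (subset_tsupport g hξ)
    simpa using this
  obtain ⟨R', hR'⟩ := hAp R
  obtain ⟨G, hG⟩ : ∃ G : ℝ, ∀ ξ, ‖g ξ‖ ≤ G := hg2.exists_bound_of_continuous hg1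
  have hG0 : 0 ≤ G := (norm_nonneg _).trans (hG 0)
  have hM0 : 0 ≤ M := (norm_nonneg _).trans (hM.self_of_nhds 0)
  have h1 : ∀ p, ‖wcomp (hk p) (hA p) (hC p) (hb p) (hg.toLp g) -
      wcomp (hk p₀) (hA p₀) (hC p₀) (hb p₀) (hg.toLp g)‖ =
      ∫ ξ, ‖k p ξ * g (A p ξ) - k p₀ ξ * g (A p₀ ξ)‖ ∂μ := by
    intro p
    rw [norm_sub_X1]
    refine integral_congr_ae ?_
    filter_upwards [wcomp_toLp (hk p) (hA p) (hC p) (hb p) hg,
      wcomp_toLp (hk p₀) (hA p₀) (hC p₀) (hb p₀) hg] with ξ e1 e2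
    rw [e1, e2]
  simp only [h1]
  have h2 : (0 : ℝ) = ∫ ξ, (fun _ : V => (0 : ℝ)) ξ ∂μ := by simp
  rw [h2]
  refine tendsto_integral_filter_of_dominated_convergence
    (fun ξ => (Metric.closedBall (0 : V) R').indicator (fun _ => 2 * M * G) ξ) ?_ ?_ ?_ ?_
  · refine Filter.Eventually.of_forall fun p => ?_
    exact (((hk p).mul (hg1.measurable.comp (hA p))).sub
      ((hk p₀).mul (hg1.measurable.comp (hA p₀)))).norm.aestronglyMeasurable
  · filter_upwards [hM, hR'] with p hp1 hp2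
    refine Filter.Eventually.of_forall fun ξ => ?_
    rw [norm_norm]
    by_cases hξ : ξ ∈ Metric.closedBall (0 : V) R'
    · rw [indicator_of_mem hξ]
      calc _ ≤ ‖k p ξ * g (A p ξ)‖ + ‖k p₀ ξ * g (A p₀ ξ)‖ := norm_sub_le _ _
        _ ≤ M * G + M * G := by
            rw [norm_mul, norm_mul]
            gcongr
            · exact hp1 ξ
            · exact hG _
            · exact hM.self_of_nhds ξ
            · exact hG _
        _ = _ := by ring
    · rw [indicator_of_notMem hξ]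
      have e1 : g (A p ξ) = 0 := by
        by_contra hne
        apply hξ
        rw [mem_closedBall_zero_iff]
        exact hp2 ξ (hR _ hne)
      have e2 : g (A p₀ ξ) = 0 := by
        by_contra hne
        apply hξ
        rw [mem_closedBall_zero_iff]
        exact hR'.self_of_nhds ξ (hR _ hne)
      simp [e1, e2]
  · rw [integrable_indicator_iff measurableSet_closedBall]
    exact integrableOn_const (by
      exact (isCompact_closedBall (0 : V) R').measure_lt_top.ne)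
  · refine Filter.Eventually.of_forall fun ξ => ?_
    have h3 : ContinuousAt (fun p => k p ξ * g (A p ξ)) p₀ :=
      (hk1 ξ).mul (hg1.continuousAt.comp (hA1 ξ))
    have h4 := (h3.tendsto.sub_const (k p₀ ξ * g (A p₀ ξ))).norm
    simpa using h4

end Vale.Agent.P139.H42
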